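import Vale.Agent.P072.Rounding
import Mathlib.Analysis.SpecialFunctions.Log.Basic

/-! # Every best piece rounds the point and respects the signs of the base vectors -/

namespace Vale.Agent.P072

open Finset

namespace Stair

variable {m : ℕ} {S : Stair m}

/-- Sequences with the first `p` values at nodes and the others at the left end. -/
def partialSeqs (S : Stair m) (p : ℕ) : Set (Fin m → ℝ) :=
  {v | ∀ l : Fin m, (l.val < p → v l ∈ S.nodes v l) ∧ (p ≤ l.val → v l = S.lo)}

lemma partialSeqs_finite (p : ℕ) : (S.partialSeqs p).Finite := by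
  induction p with
  | zero =>
    refine (Set.finite_singleton fun _ => S.lo).subset fun v hv => ?_
    exact Set.mem_singleton_iff.2 (funext fun l => (hv l).2 (Nat.zero_le _))
  | succ p ih =>
    by_cases hp : p < m
    · let k : Fin m := ⟨p, hp⟩
      refine (ih.biUnion fun v _ => (S.nodes v k).finite_toSet.image
        fun a => Function.update v k a).subset fun v hv => ?_
      have hagree : ∀ l, l ≠ k → Function.update v k S.lo l = v l := fun l h =>
        Function.update_of_ne h _ _
      refine Set.mem_iUnion₂.2 ⟨Function.update v k S.lo, fun l => ⟨fun hl => ?_, fun hl => ?_⟩,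
        v k, ?_, ?_⟩
      · have hne : l ≠ k := fun h => by subst h; simp [k] at hl
        rw [hagree l hne, nodes_congr (S := S) (v' := v) fun j hj => hagree j (by
          intro h; subst h
          have : k.val < l.val := hj
          simp [k] at this; omega)]
        exact (hv l).1 (by omega)
      · by_cases hne : l = k
        · simp [hne]
        · rw [hagree l hne]
          exact (hv l).2 (by
            have : l.val ≠ p := fun h => hne (Fin.ext h)
            omega)
      · rw [Finset.mem_coe, nodes_congr (S := S) (v' := v) fun j hj => hagree j hj.ne]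
        exact (hv k).1 (Nat.lt_succ_self p)
      · funext l
        by_cases h : l = k <;> simp [h]
    · refine ih.subset fun v hv l => ⟨fun _ => (hv l).1 (by omega), fun h => ?_⟩
      omega

lemma adm_finite : {v : Fin m → ℝ | S.Adm v}.Finite :=
  (partialSeqs_finite (S := S) m).subset fun v hv l =>
    ⟨fun _ => hv.2 l, fun h => absurd h (by omega)⟩

lemma adm_lo : S.Adm fun _ : Fin m => S.lo :=
  ⟨antitone_const, fun k => lo_mem _ k⟩

/-- The finitely many admissible sequences. -/
noncomputable def cands (S : Stair m) : Finset (Fin m → ℝ) := (adm_finite (S := S)).toFinset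

lemma mem_cands {v : Fin m → ℝ} : v ∈ S.cands ↔ S.Adm v := by simp [cands]

lemma exists_best (R : ℝ) (ξ : Fin m → ℝ) : ∃ σ v, S.IsBest R ξ σ v := by
  classical
  obtain ⟨⟨σ, v⟩, hmem, hmax⟩ := Finset.exists_max_image
    ((univ : Finset (Equiv.Perm (Fin m))) ×ˢ S.cands) (fun p => S.piece R ξ p.1 p.2)
    ⟨(1, fun _ => S.lo), by simp [mem_cands, adm_lo]⟩
  simp only [Finset.mem_product, Finset.mem_univ, true_and, mem_cands] at hmem hmax
  exact ⟨σ, v, hmem, fun σ' v' hv' => hmax (σ', v') hv'⟩

lemma exists_gap : ∃ γ : ℝ, 0 < γ ∧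
    ∀ v, S.Adm v → ∀ k, ∀ w ∈ S.nodes v k, S.lo < w → γ ≤ w - S.before v k w := by
  classical
  let G : Finset ℝ := insert (1 : ℝ) (S.cands.biUnion fun v => univ.biUnion fun k =>
    ((S.nodes v k).filter fun w => S.lo < w).image fun w => w - S.before v k w)
  have hne : G.Nonempty := Finset.insert_nonempty _ _
  refine ⟨G.min' hne, (Finset.lt_min'_iff _ _).2 fun a ha => ?_,
    fun v hv k w hw hlo => Finset.min'_le _ _ ?_⟩
  · simp only [G, Finset.mem_insert, Finset.mem_biUnion, Finset.mem_image,
      Finset.mem_filter] at ha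
    rcases ha with rfl | ⟨v, -, k, -, w, ⟨-, hw⟩, rfl⟩
    · exact one_pos
    · linarith [before_lt (S := S) (v := v) (k := k) hw]
  · simp only [G, Finset.mem_insert, Finset.mem_biUnion, Finset.mem_image,
      Finset.mem_filter]
    exact Or.inr ⟨v, mem_cands.2 hv, k, Finset.mem_univ _, w, ⟨hw, hlo⟩, rfl⟩

/-- A best piece can be re-indexed so that the point is decreasingly ordered. -/
lemma exists_sorted {R : ℝ} (hR : 0 < R) {ξ : Fin m → ℝ} {σ : Equiv.Perm (Fin m)}
    {v : Fin m → ℝ} (h : S.IsBest R ξ σ v) :
    ∃ σ', S.IsBest R ξ σ' v ∧ Antitone (fun k => ξ (σ' k)) ∧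
      ∀ i, v (σ'.symm i) = v (σ.symm i) := by
  classical
  let key : Fin m → (ℝ ×ₗ ℝ)ᵒᵈ := fun k => OrderDual.toDual (toLex (v k, ξ (σ k)))
  let τ := Tuple.sort key
  have hmono : Monotone (key ∘ τ) := Tuple.monotone_sort key
  have hlex : ∀ i j, i ≤ j → v (τ j) < v (τ i) ∨ (v (τ j) = v (τ i) ∧ ξ (σ (τ j)) ≤ ξ (σ (τ i))) :=
    fun i j hij => Prod.Lex.le_iff.1 (OrderDual.toDual_le_toDual.1 (hmono hij))
  have hv1 : Monotone ((OrderDual.toDual ∘ v) ∘ τ) := fun i j hij =>
    OrderDual.toDual_le_toDual.2 ((hlex i j hij).elim le_of_lt fun h => h.1.le)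
  have hv2 : Monotone ((OrderDual.toDual ∘ v) ∘ (1 : Equiv.Perm (Fin m))) := fun i j hij =>
    OrderDual.toDual_le_toDual.2 (h.1.1 hij)
  have hvτ : ∀ k, v (τ k) = v k := fun k => by
    have := congrFun (Tuple.unique_monotone hv1 hv2) k
    simpa using this
  let σ' : Equiv.Perm (Fin m) := τ.trans σ
  have hn : ∀ i, v (σ'.symm i) = v (σ.symm i) := fun i => by
    simp only [σ', Equiv.symm_trans_apply]
    rw [← hvτ (τ.symm (σ.symm i)), Equiv.apply_symm_apply]
  have hval : S.piece R ξ σ' v = S.piece R ξ σ v := by
    simp only [piece, Finset.sum_sub_distrib]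
    congr 1
    rw [← Equiv.sum_comp τ (fun k => Real.exp (R * ξ (σ k)) * v k)]
    refine Finset.sum_congr rfl fun k _ => ?_
    simp only [σ', Equiv.trans_apply, hvτ]
  have hbest : S.IsBest R ξ σ' v := ⟨h.1, fun a b hb => hval.symm ▸ h.2 a b hb⟩
  refine ⟨σ', hbest, fun k l hkl => ?_, hn⟩
  have hl := hlex k l hkl
  rw [hvτ, hvτ] at hl
  rcases hl with hlt | ⟨-, hle⟩
  swap
  · exact hle
  · by_contra hcon
    rw [not_le] at hcon
    have hne : k ≠ l := fun e => by subst e; exact lt_irrefl _ hlt
    let f : Fin m → ℝ := fun j => Real.exp (R * ξ (σ' j))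
    have hf : f k < f l := Real.exp_lt_exp.2 (mul_lt_mul_of_pos_left hcon hR)
    have hdiff : S.piece R ξ ((Equiv.swap k l).trans σ') v - S.piece R ξ σ' v =
        (f l - f k) * (v k - v l) := by
      simp only [piece, ← Finset.sum_sub_distrib, Equiv.trans_apply]
      rw [Fintype.sum_eq_add k l hne]
      · simp only [Equiv.swap_apply_left, Equiv.swap_apply_right, f]
        ring
      · rintro j ⟨h1, h2⟩
        simp [Equiv.swap_apply_of_ne_of_ne h1 h2]
    have h1 := hbest.2 ((Equiv.swap k l).trans σ') v h.1
    have h2 : 0 < (f l - f k) * (v k - v l) := mul_pos (by linarith) (by linarith)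
    linarith

/-- All pieces but those rounding `ξ` coordinate by coordinate lose. -/
theorem exists_rounding {κ C μ : ℝ} (H : S.Good κ C) (hμ : 0 < μ) (hμρ : 4 * μ ≤ S.ρ) :
    ∃ A : ℝ, ∀ (R : ℝ) (ξ : Fin m → ℝ) (σ : Equiv.Perm (Fin m)) (v : Fin m → ℝ),
      0 < R → A < Real.exp (R * μ) → S.IsBest R ξ σ v → Antitone (fun k => ξ (σ k)) →
      (∀ i, S.lo + 10 * S.maxBand ≤ ξ i ∧ ξ i ≤ S.hi - 10 * S.maxBand) →
      ∀ k : Fin m, S.lo < v k ∧
        |ξ (σ k) - v k| ≤ 3 * (S.ρ * S.Λ ^ S.code v (k.val + 1)) := by
  classical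
  obtain ⟨γ, hγ, hgap⟩ := exists_gap (S := S)
  have hρ := H.rho_pos
  have hlh := lo_le_hi (S := S) hρ.le
  let B : ℝ := (S.nodeBound + 1 : ℝ) * (S.hi - S.lo + 1)
  have hB : 0 < B := mul_pos (by positivity) (by linarith)
  have hBn : (S.nodeBound : ℝ) * (S.hi - S.lo) ≤ B := by
    have : (0 : ℝ) ≤ S.nodeBound := Nat.cast_nonneg _
    simp only [B]; nlinarith
  have hBx : S.hi - S.lo ≤ B := by
    have : (0 : ℝ) ≤ S.nodeBound := Nat.cast_nonneg _
    simp only [B]; nlinarith
  refine ⟨(m : ℝ) * B / γ, fun R ξ σ v hR hA hbest hsort hbox => ?_⟩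
  have hA' : (m : ℝ) * B < γ * Real.exp (R * μ) := by
    rw [div_lt_iff₀ hγ] at hA; linarith
  obtain ⟨⟨hanti, hnode⟩, hmax⟩ := hbest
  intro k
  induction hkv : k.val using Nat.strong_induction_on generalizing k with
  | _ p ih =>
  subst hkv
  have ih' : ∀ j : Fin m, j < k → S.lo < v j ∧
      |ξ (σ j) - v j| ≤ 3 * (S.ρ * S.Λ ^ S.code v (j.val + 1)) := fun j hj => ih j.val hj j rfl
  have hv : S.Proper v k.val := fun l hl => ⟨hnode l, (ih' l hl).1⟩
  let x : Fin m → ℝ := fun j => Real.exp (R * ξ (σ j))
  have hxpos : ∀ j, 0 < x j := fun j => Real.exp_pos _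
  have hxmono : ∀ i j, i ≤ j → x j ≤ x i := fun i j hij =>
    Real.exp_le_exp.2 (mul_le_mul_of_nonneg_left (hsort hij) hR.le)
  have hT := H.rho_le_band v k
  have hTmax := H.band_le_max v k
  have hTpos := H.band_pos v k
  set T := S.band v k
  obtain ⟨hbox1, hbox2⟩ := hbox (σ k)
  -- competitors differ from `v` only from position `k` on
  have hkey : ∀ v' : Fin m → ℝ, S.Adm v' → (∀ j, j < k → v' j = v j) →
      ∑ j ∈ univ.filter (fun j => ¬ j < k),
        ((x j * v' j - S.cost R v' j) - (x j * v j - S.cost R v j)) ≤ 0 := by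
    intro v' hv' hag
    have h0 := hmax σ v' hv'
    have hzero : ∀ j ∈ univ.filter (fun j => j < k),
        (x j * v' j - S.cost R v' j) - (x j * v j - S.cost R v j) = 0 := fun j hj => by
      have hjk := (Finset.mem_filter.1 hj).2
      rw [hag j hjk, cost_congr (S := S) R (fun l hl => hag l (lt_trans hl hjk)) (hag j hjk)]
      ring
    have : S.piece R ξ σ v' - S.piece R ξ σ v = ∑ j ∈ univ.filter (fun j => ¬ j < k),
        ((x j * v' j - S.cost R v' j) - (x j * v j - S.cost R v j)) := by
      simp only [piece, ← Finset.sum_sub_distrib, x]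
      rw [← Finset.sum_filter_add_sum_filter_not univ (fun j => j < k),
        Finset.sum_eq_zero (by simpa [x] using hzero), zero_add]
    linarith
  have hcard : ((univ.filter fun j : Fin m => ¬ j < k).card : ℝ) ≤ m := by
    have := (Finset.card_filter_le univ fun j : Fin m => ¬ j < k)
    simp only [Finset.card_univ, Fintype.card_fin] at this
    exact_mod_cast this
  have hkmem : k ∈ univ.filter (fun j => ¬ j < k) := by simp
  have hrange : ∀ j, S.lo ≤ v j ∧ v j ≤ S.hi := fun j => nodes_range hρ.le (hnode j)
  -- lower bound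
  have hlow : S.lo < v k → S.thr v k (v k) ≤ ξ (σ k) + μ := by
    intro hlo
    by_contra hcon
    rw [not_le] at hcon
    let vt : Fin m → ℝ := fun j => if j < k then v j else S.lo
    have hag : ∀ j, j < k → vt j = v j := fun j hj => by simp [vt, hj]
    have hvt : S.Adm vt := by
      refine ⟨fun i j hij => ?_, fun j => ?_⟩
      · simp only [vt]
        split_ifs with h1 h2 h2
        · exact hanti hij
        · exact absurd (lt_of_le_of_lt hij h1) h2
        · exact (hrange i).1
        · exact le_rfl
      · by_cases hj : j < k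
        · rw [hag j hj, nodes_congr (S := S) (v' := v) fun l hl => hag l (lt_trans hl hj)]
          exact hnode j
        · simp only [vt, if_neg hj]
          exact lo_mem _ _
    have hle := hkey vt hvt hag
    have hg : ∀ j ∈ univ.filter (fun j => ¬ j < k),
        (if j = k then γ * Real.exp (R * S.thr v k (v k)) else 0) - B * x k ≤
          (x j * vt j - S.cost R vt j) - (x j * v j - S.cost R v j) := by
      intro j hj
      have hjk := (Finset.mem_filter.1 hj).2
      have hvtj : vt j = S.lo := if_neg hjk
      rw [hvtj, cost_lo R hvtj]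
      have h1 : x j * (v j - S.lo) ≤ x k * B :=
        mul_le_mul (hxmono k j (not_lt.1 hjk)) (by linarith [(hrange j).2])
          (by linarith [(hrange j).1]) (hxpos k).le
      have h2 := cost_nonneg (S := S) R v j
      split_ifs with hjk'
      · subst hjk'
        have h3 := le_cost R (hnode j) hlo
        have h4 := mul_le_mul_of_nonneg_right (hgap v ⟨hanti, hnode⟩ j _ (hnode j) hlo)
          (Real.exp_pos (R * S.thr v j (v j))).le
        linarith
      · linarith
    have hsum := (Finset.sum_le_sum hg).trans hle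
    rw [Finset.sum_sub_distrib, Finset.sum_ite_eq' _ k, if_pos hkmem, Finset.sum_const,
      nsmul_eq_mul] at hsum
    have he : Real.exp (R * μ) * x k ≤ Real.exp (R * S.thr v k (v k)) := by
      simp only [x, ← Real.exp_add]
      exact Real.exp_le_exp.2 (by nlinarith)
    have h5 := mul_le_mul_of_nonneg_right hcard (mul_nonneg hB.le (hxpos k).le)
    have h6 := mul_lt_mul_of_pos_right hA' (hxpos k)
    have h7 := mul_le_mul_of_nonneg_left he hγ.le
    linarith
  have hlow' : S.lo < v k → v k - 2 * T - μ ≤ ξ (σ k) := by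
    intro hlo
    have := hlow hlo
    simp only [thr] at this
    split_ifs at this with hb
    · linarith [thr_break_ge H hv (hnode k) hb]
    · linarith
  have hroom : v k + 6 * T ≤ S.hi := by
    rcases (hrange k).1.eq_or_lt with h | h
    · linarith
    · linarith [hlow' h]
  -- upper bound
  have hup : (S.lo < v k ∧ v k ∈ S.breaks v k ∧ ξ (σ k) ≤ v k + 3 * T) ∨
      ((∀ j, j < k → v k < v j) ∧ ∀ w ∈ S.nodes v k, v k < w →
        (∀ u ∈ S.nodes v k, v k < u → w ≤ u) → ξ (σ k) ≤ S.thr v k w + 2 * μ) := by
    by_cases hprev : ∃ j, j < k ∧ v j ≤ v k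
    · obtain ⟨j, hjk, hvj⟩ := hprev
      have heq : v j = v k := le_antisymm hvj (hanti hjk.le)
      obtain ⟨hjlo, hjd⟩ := ih' j hjk
      refine Or.inl ⟨heq ▸ hjlo, heq ▸ pair_break hjk, ?_⟩
      have h1 : S.code v (j.val + 1) ≤ S.code v k.val + 2 ^ (m - 1 - k.val) :=
        (code_mono (show j.val + 1 ≤ k.val from hjk)).trans (Nat.le_add_right _ _)
      have h2 : S.ρ * S.Λ ^ S.code v (j.val + 1) ≤ T :=
        mul_le_mul_of_nonneg_left (H.lam_pow_le h1) hρ.le
      linarith [(abs_le.1 hjd).2, hsort hjk.le]
    · simp only [not_exists, not_and, not_le] at hprev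
      refine Or.inr ⟨hprev, fun w hw hwk hwmin => ?_⟩
      by_contra hcon
      rw [not_le] at hcon
      set θ := S.thr v k w with hθ
      let P : Fin m → Prop := fun j => θ + μ < ξ (σ j)
      let vh : Fin m → ℝ := fun j => if j < k then v j else if P j then w else S.lo
      have hag : ∀ j, j < k → vh j = v j := fun j hj => by simp [vh, hj]
      have hPk : P k := by simp only [P]; linarith
      have hwlo : S.lo < w := lt_of_le_of_lt (hrange k).1 hwk
      have hPmono : ∀ i j, i ≤ j → P j → P i := fun i j hij hj => by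
        simp only [P] at hj ⊢; linarith [hsort hij]
      have hwprev : ∀ j, j < k → w ≤ v j := fun j hj =>
        hwmin (v j) (pair_node hρ.le hj (hnode j)) (hprev j hj)
      have hvhk : vh k = w := by simp [vh, hPk]
      have hwk' : vh k ∈ S.nodes vh k := by
        rw [hvhk, nodes_congr (S := S) (v' := v) hag]; exact hw
      have hvh : S.Adm vh := by
        refine ⟨fun i j hij => ?_, fun j => ?_⟩
        · by_cases hj : j < k
          · simp only [vh, if_pos hj, if_pos (lt_of_le_of_lt hij hj)]
            exact hanti hij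
          · by_cases hi : i < k
            · simp only [vh, if_neg hj, if_pos hi]
              split_ifs
              · exact hwprev i hi
              · exact (hrange i).1
            · simp only [vh, if_neg hj, if_neg hi]
              split_ifs with h1 h2 h2
              · exact le_rfl
              · exact absurd (hPmono i j hij h1) h2
              · exact hwlo.le
              · exact le_rfl
        · by_cases hj : j < k
          · rw [hag j hj, nodes_congr (S := S) (v' := v) fun l hl => hag l (lt_trans hl hj)]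
            exact hnode j
          · by_cases hPj : P j
            · rcases (not_lt.1 hj).eq_or_lt with rfl | hkj
              · exact hwk'
              · have : vh j = vh k := by simp [vh, hj, hPj, hPk]
                rw [this]
                exact pair_node hρ.le hkj hwk'
            · simp only [vh, if_neg hj, if_neg hPj]
              exact lo_mem _ _
      have hle := hkey vh hvh hag
      have hE : ∀ j, ¬ j < k → P j →
          S.cost R vh j ≤ B * Real.exp (R * (θ + μ)) := by
        intro j hj hPj
        have hvj : vh j = w := by simp [vh, hj, hPj]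
        refine (cost_le hρ.le hR.le (Θ := θ) fun u hu hulo hule => ?_).trans ?_
        · rw [hvj] at hule
          rcases (not_lt.1 hj).eq_or_lt with rfl | hkj
          · rw [thr_congr (S := S) hag]
            rw [nodes_congr (S := S) hag] at hu
            exact thr_mono hu hulo hule
          · have hprop : S.Proper vh j.val := fun l hl => by
              refine ⟨hvh.2 l, ?_⟩
              by_cases hlk : l < k
              · rw [hag l hlk]; exact (ih' l hlk).1
              · simp only [vh, if_neg hlk, if_pos (hPmono l j (le_of_lt hl) hPj)]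
                exact hwlo
            have := thr_tie H hkj hprop hu hulo (hvhk.symm ▸ hule)
            rwa [hvhk, thr_congr (S := S) hag] at this
        · exact mul_le_mul hBn (Real.exp_le_exp.2 (by nlinarith)) (Real.exp_pos _).le hB.le
      have hg : ∀ j ∈ univ.filter (fun j => ¬ j < k),
          (if j = k then γ * x k else 0) - B * Real.exp (R * (θ + μ)) ≤
            (x j * vh j - S.cost R vh j) - (x j * v j - S.cost R v j) := by
        intro j hj
        have hjk := (Finset.mem_filter.1 hj).2
        have h2 := cost_nonneg (S := S) R v j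
        by_cases hPj : P j
        · have hvj : vh j = w := by simp [vh, hjk, hPj]
          have h3 := hE j hjk hPj
          have hvle : v j ≤ v k := hanti (not_lt.1 hjk)
          split_ifs with hjk'
          · subst hjk'
            have h4 : γ ≤ w - v j := le_trans (hgap v ⟨hanti, hnode⟩ j w hw hwlo) (by
              linarith [le_before (hnode j) hwk])
            have h5 := mul_le_mul_of_nonneg_right h4 (hxpos j).le
            rw [hvj]
            linarith
          · have h5 : 0 ≤ x j * (w - v j) := mul_nonneg (hxpos j).le (by linarith)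
            rw [hvj]
            linarith
        · have hvj : vh j = S.lo := by simp [vh, hjk, hPj]
          rw [if_neg (fun h => hPj (by subst h; exact hPk)), hvj, cost_lo R hvj]
          have h1 : x j * (v j - S.lo) ≤ Real.exp (R * (θ + μ)) * B :=
            mul_le_mul (Real.exp_le_exp.2 (mul_le_mul_of_nonneg_left (not_lt.1 hPj) hR.le))
              (by linarith [(hrange j).2]) (by linarith [(hrange j).1]) (Real.exp_pos _).le
          linarith
      have hsum := (Finset.sum_le_sum hg).trans hle
      rw [Finset.sum_sub_distrib, Finset.sum_ite_eq' _ k, if_pos hkmem, Finset.sum_const,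
        nsmul_eq_mul] at hsum
      have he : Real.exp (R * μ) * Real.exp (R * (θ + μ)) ≤ x k := by
        simp only [x, ← Real.exp_add]
        exact Real.exp_le_exp.2 (by nlinarith)
      have h5 := mul_le_mul_of_nonneg_right hcard
        (mul_nonneg hB.le (Real.exp_pos (R * (θ + μ))).le)
      have h6 := mul_lt_mul_of_pos_right hA' (Real.exp_pos (R * (θ + μ)))
      have h7 := mul_le_mul_of_nonneg_left he hγ.le
      linarith
  have hlo : S.lo < v k := by
    rcases hup with h | ⟨-, hw⟩
    · exact h.1
    · rcases (hrange k).1.eq_or_lt with h | h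
      · obtain ⟨w, hwn, hwk, hwmin, -, -, hwlo⟩ := exists_next H hv (hnode k) hroom
        linarith [hw w hwn hwk hwmin, hwlo h.symm]
      · exact h
  refine ⟨hlo, ?_⟩
  have hcode := code_succ (S := S) (v := v) k
  by_cases hb : v k ∈ S.breaks v k
  · have hT' : S.ρ * S.Λ ^ S.code v (k.val + 1) = T := by rw [hcode, if_pos hb]; rfl
    rw [hT', abs_le]
    refine ⟨by linarith [hlow' hlo], ?_⟩
    rcases hup with h | ⟨-, hw⟩
    · linarith [h.2.2]
    · obtain ⟨w, hwn, hwk, hwmin, hwb, -, -⟩ := exists_next H hv (hnode k) hroom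
      linarith [hw w hwn hwk hwmin, hwb hlo hb]
  · have hρ' : S.ρ ≤ S.ρ * S.Λ ^ S.code v (k.val + 1) :=
      le_mul_of_one_le_right hρ.le (one_le_pow₀ (by linarith [H.twenty_le_lam]))
    have h1 := hlow hlo
    simp only [thr, if_neg hb] at h1
    rw [abs_le]
    refine ⟨by linarith, ?_⟩
    rcases hup with h | ⟨-, hw⟩
    · exact absurd h.2.1 hb
    · obtain ⟨w, hwn, hwk, hwmin, -, hwf, -⟩ := exists_next H hv (hnode k) hroom
      linarith [hw w hwn hwk hwmin, hwf hlo hb]

/-- The values of a rounding piece are close to the point and have the same signs on the base. -/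
theorem signs {κ C : ℝ} (H : S.Good κ C) {ξ : Fin m → ℝ} {σ : Equiv.Perm (Fin m)}
    {v : Fin m → ℝ} (hnode : ∀ k, v k ∈ S.nodes v k)
    (h : ∀ k : Fin m, S.lo < v k ∧
      |ξ (σ k) - v k| ≤ 3 * (S.ρ * S.Λ ^ S.code v (k.val + 1))) :
    (∀ k, |ξ (σ k) - v k| ≤ 3 * S.maxBand) ∧
    ∀ e ∈ S.base, (0 < ∑ l, e l * v l → S.ρ ≤ ∑ l, e l * ξ (σ l)) ∧
      (∑ l, e l * v l < 0 → ∑ l, e l * ξ (σ l) ≤ -S.ρ) := by
  have hρ := H.rho_pos
  refine ⟨fun k => (h k).2.trans ?_, fun e he => ?_⟩
  · refine mul_le_mul_of_nonneg_left (mul_le_mul_of_nonneg_left (H.lam_pow_le ?_) hρ.le)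
      (by norm_num)
    have := code_add_le (S := S) (v := v) (Nat.zero_le (k.val + 1)) k.2
    rw [code_zero, Nat.zero_add, Nat.sub_zero] at this
    exact le_trans (Nat.le_add_right _ _) this
  · have hprop : S.Proper v m := fun l _ => ⟨hnode l, (h l).1⟩
    have hfam : e ∈ S.family m := mem_family.2 ⟨base_mem he _, fun l hl => absurd hl (by omega)⟩
    set E := S.ρ * S.Λ ^ S.code v m with hE
    have hEpos : S.ρ ≤ E :=
      le_mul_of_one_le_right hρ.le (one_le_pow₀ (by linarith [H.twenty_le_lam]))
    have herr : |∑ l, e l * ξ (σ l) - ∑ l, e l * v l| ≤ C * (3 * E) := by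
      rw [← Finset.sum_sub_distrib]
      refine (Finset.abs_sum_le_sum_abs _ _).trans (le_trans (Finset.sum_le_sum
        (g := fun l => |e l| * (3 * E)) fun l _ => ?_) ?_)
      · rw [← mul_sub, abs_mul]
        exact mul_le_mul_of_nonneg_left ((h l).2.trans (mul_le_mul_of_nonneg_left
          (mul_le_mul_of_nonneg_left (H.lam_pow_le (code_mono l.2)) hρ.le) (by norm_num)))
          (abs_nonneg _)
      · rw [← Finset.sum_mul]
        exact mul_le_mul_of_nonneg_right
          (H.entry_high e (closure_mono le_rfl (base_mem he m))) (by linarith)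
    have hsep : ∑ l, e l * v l ≠ 0 → (20 * (C + 1) ^ 2) * E ≤ |∑ l, e l * v l| := by
      intro hne
      refine le_trans ?_ (separation H m le_rfl hprop e hfam hne)
      rw [Nat.sub_self, pow_zero, pow_succ, hE]
      have hk : κ ^ (m + 2) ≤ κ ^ m :=
        pow_le_pow_of_le_one H.kappa_pos.le H.kappa_le_one (by omega)
      have hlam := H.twenty_le_lam
      calc 20 * (C + 1) ^ 2 * (S.ρ * S.Λ ^ S.code v m)
          ≤ κ ^ (m + 2) * S.Λ * (S.ρ * S.Λ ^ S.code v m) :=
            mul_le_mul_of_nonneg_right H.lam (by linarith)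
        _ ≤ κ ^ m * S.Λ * (S.ρ * S.Λ ^ S.code v m) := by gcongr
        _ = κ ^ m * S.ρ * (S.Λ ^ S.code v m * S.Λ) := by ring
    have herr' := abs_le.1 herr
    have hCsq : 4 * C + 4 ≤ 20 * (C + 1) ^ 2 := by nlinarith [H.C_ge]
    have hbig := mul_le_mul_of_nonneg_right hCsq (le_trans hρ.le hEpos)
    have hCE : 0 ≤ C * E := mul_nonneg (by linarith [H.C_ge]) (le_trans hρ.le hEpos)
    constructor
    · intro hpos
      have := hsep hpos.ne'
      rw [abs_of_pos hpos] at this
      linarith
    · intro hneg
      have := hsep hneg.ne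
      rw [abs_of_neg hneg] at this
      linarith

end Stair

end Vale.Agent.P072
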