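import Vale.Agent.P072.Network

/-! # Weak reversibility: descent when levels and weights agree -/

namespace Vale.Agent.P072

open Finset

variable {d : ℕ}

/-- `z` grows strongly wherever the level `a` grows, along connected complexes. -/
def Graded (R : Finset (Reaction d)) (ε : ℝ) (a z : (Fin d → ℕ) → ℝ) : Prop :=
  ∀ u v, Relation.ReflTransGen (Step R) u v → a v < a u → z v ≤ ε * z u

/-- The weighted total descent along the reactions. -/
def downFlux (R : Finset (Reaction d)) (k : Reaction d → ℝ) (a z : (Fin d → ℕ) → ℝ) : ℝ :=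
  ∑ r ∈ R, k r * z r.1 * max (a r.1 - a r.2) 0

/-- The weighted total ascent along the reactions. -/
def upFlux (R : Finset (Reaction d)) (k : Reaction d → ℝ) (a z : (Fin d → ℕ) → ℝ) : ℝ :=
  ∑ r ∈ R, k r * z r.1 * max (a r.2 - a r.1) 0

lemma exists_path_bound {R : Finset (Reaction d)} {k : Reaction d → ℝ} (hk : ∀ r ∈ R, 0 < k r)
    {u y : Fin d → ℕ} (h : Relation.ReflTransGen (Step R) u y) :
    ∃ L : ℝ, 0 ≤ L ∧ ∀ (ε : ℝ) (a z : (Fin d → ℕ) → ℝ), 0 ≤ ε → (∀ v, 0 < z v) →
      Graded R ε a z → z y * (max (a u) (a y) - a y) ≤ ε * L * downFlux R k a z := by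
  induction h using Relation.ReflTransGen.head_induction_on with
  | refl => exact ⟨0, le_rfl, fun ε a z _ _ _ => by simp⟩
  | @head u w huw hwy ih =>
    obtain ⟨L, hL0, hL⟩ := ih
    have hkp : 0 < k (u, w) := hk _ huw
    refine ⟨L + (k (u, w))⁻¹, by positivity, fun ε a z hε hz hg => ?_⟩
    have hrec := hL ε a z hε hz hg
    have hterm : k (u, w) * z u * max (a u - a w) 0 ≤ downFlux R k a z := by
      refine Finset.single_le_sum (f := fun r => k r * z r.1 * max (a r.1 - a r.2) 0) ?_ huw
      intro r hr
      exact mul_nonneg (mul_nonneg (hk r hr).le (hz _).le) (le_max_right _ _)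
    have hdown : 0 ≤ downFlux R k a z :=
      le_trans (mul_nonneg (mul_nonneg hkp.le (hz _).le) (le_max_right _ _)) hterm
    have hstep : z y * (max (a u) (a y) - max (a w) (a y)) ≤
        ε * (k (u, w))⁻¹ * downFlux R k a z := by
      rcases le_or_gt (a u) (a y) with hle | hlt
      · refine le_trans ?_ (by positivity)
        apply mul_nonpos_of_nonneg_of_nonpos (hz _).le
        rw [max_eq_right hle]
        linarith [le_max_right (a w) (a y)]
      · have hzz := hg u y (Relation.ReflTransGen.head huw hwy) hlt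
        calc z y * (max (a u) (a y) - max (a w) (a y))
            ≤ z y * max (a u - a w) 0 := by
              refine mul_le_mul_of_nonneg_left ?_ (hz _).le
              rw [max_eq_left hlt.le]
              linarith [le_max_left (a w) (a y), le_max_left (a u - a w) 0]
          _ ≤ ε * z u * max (a u - a w) 0 :=
              mul_le_mul_of_nonneg_right hzz (le_max_right _ _)
          _ = ε * (k (u, w))⁻¹ * (k (u, w) * z u * max (a u - a w) 0) := by
              field_simp
          _ ≤ ε * (k (u, w))⁻¹ * downFlux R k a z :=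
              mul_le_mul_of_nonneg_left hterm (by positivity)
    calc z y * (max (a u) (a y) - a y)
        = z y * (max (a u) (a y) - max (a w) (a y)) + z y * (max (a w) (a y) - a y) := by ring
      _ ≤ ε * (k (u, w))⁻¹ * downFlux R k a z + ε * L * downFlux R k a z :=
          add_le_add hstep hrec
      _ = _ := by ring

/-- With a strong enough grading, the weighted level strictly decreases. -/
theorem exists_descent {R : Finset (Reaction d)} {k : Reaction d → ℝ}
    (hR : WeaklyReversible R) (hk : ∀ r ∈ R, 0 < k r) :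
    ∃ ε : ℝ, 0 < ε ∧ ∀ a z : (Fin d → ℕ) → ℝ, (∀ v, 0 < z v) → Graded R ε a z →
      (∃ r ∈ R, a r.2 ≠ a r.1) → ∑ r ∈ R, k r * z r.1 * (a r.2 - a r.1) < 0 := by
  choose L hL0 hL using fun r : R => exists_path_bound hk (hR.2 r.1 r.2)
  let S : ℝ := ∑ r : R, k r.1 * L r
  have hS : 0 ≤ S := Finset.sum_nonneg fun r _ => mul_nonneg (hk _ r.2).le (hL0 r)
  refine ⟨1 / (2 * (S + 1)), by positivity, fun a z hz hg ⟨r₀, hr₀, hne⟩ => ?_⟩
  let ε : ℝ := 1 / (2 * (S + 1))
  have hε : 0 ≤ ε := by positivity
  have hdown : 0 ≤ downFlux R k a z := Finset.sum_nonneg fun r hr =>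
    mul_nonneg (mul_nonneg (hk r hr).le (hz _).le) (le_max_right _ _)
  have hup : upFlux R k a z ≤ ε * S * downFlux R k a z := by
    have hS' : ε * S * downFlux R k a z = ∑ r : R, k r.1 * (ε * L r * downFlux R k a z) := by
      simp only [S, Finset.mul_sum, Finset.sum_mul]
      exact Finset.sum_congr rfl fun r _ => by ring
    rw [hS', upFlux, ← Finset.sum_coe_sort R]
    refine Finset.sum_le_sum fun r _ => ?_
    rw [mul_assoc]
    refine mul_le_mul_of_nonneg_left ?_ (hk _ r.2).le
    refine le_trans (le_of_eq ?_) (hL r ε a z hε hz hg)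
    rw [← max_sub_sub_right, sub_self]
  have hsplit : ∑ r ∈ R, k r * z r.1 * (a r.2 - a r.1) =
      upFlux R k a z - downFlux R k a z := by
    simp only [upFlux, downFlux, ← Finset.sum_sub_distrib]
    refine Finset.sum_congr rfl fun r _ => ?_
    rw [← mul_sub]
    congr 1
    rcases le_total (a r.2) (a r.1) with h | h
    · rw [max_eq_right (by linarith), max_eq_left (by linarith)]; ring
    · rw [max_eq_left (by linarith), max_eq_right (by linarith)]; ring
  have hεS : ε * S ≤ 1 / 2 := by
    simp only [ε]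
    rw [div_mul_eq_mul_div, div_le_iff₀ (by positivity)]
    linarith
  have hhalf : upFlux R k a z ≤ 1 / 2 * downFlux R k a z :=
    hup.trans (mul_le_mul_of_nonneg_right hεS hdown)
  rw [hsplit]
  by_contra hcon
  have hzero : downFlux R k a z = 0 := by linarith
  have hupzero : upFlux R k a z ≤ 0 := by linarith
  have hup0 : upFlux R k a z = 0 := le_antisymm hupzero <| Finset.sum_nonneg fun r hr =>
    mul_nonneg (mul_nonneg (hk r hr).le (hz _).le) (le_max_right _ _)
  have e1 := (Finset.sum_eq_zero_iff_of_nonneg fun r hr =>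
    mul_nonneg (mul_nonneg (hk r hr).le (hz _).le) (le_max_right _ _)).1 hzero r₀ hr₀
  have e2 := (Finset.sum_eq_zero_iff_of_nonneg fun r hr =>
    mul_nonneg (mul_nonneg (hk r hr).le (hz _).le) (le_max_right _ _)).1 hup0 r₀ hr₀
  have hpos : 0 < k r₀ * z r₀.1 := mul_pos (hk _ hr₀) (hz _)
  rw [mul_eq_zero] at e1 e2
  have e1' := e1.resolve_left hpos.ne'
  have e2' := e2.resolve_left hpos.ne'
  rw [max_eq_right_iff] at e1' e2'
  exact hne (by linarith)

end Vale.Agent.P072
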