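import Vale.Agent.P072.Estimates
import Vale.Agent.P072.Flux
import Mathlib.Analysis.SpecialFunctions.Pow.Real

/-! # The invariant bodies -/

namespace Vale.Agent.P072

open Finset Filter

variable {n : ℕ}

/-- A constraint: a staircase on some of the coordinates, with a normalisation. -/
structure Cons (n : ℕ) where
  m : ℕ
  emb : Fin m → Fin n
  stair : Stair m
  a : ℝ
  off : ℝ

namespace Cons

/-- One affine piece. -/
noncomputable def lin (F : Cons n) (R : ℝ) (x : Fin n → ℝ) (σ : Equiv.Perm (Fin F.m))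
    (v : Fin F.m → ℝ) : ℝ :=
  (∑ k, x (F.emb (σ k)) * v k) - ∑ k, F.stair.cost R v k

/-- One normalised affine piece. -/
noncomputable def value (F : Cons n) (R : ℝ) (x : Fin n → ℝ) (σ : Equiv.Perm (Fin F.m))
    (v : Fin F.m → ℝ) : ℝ :=
  F.lin R x σ v * Real.exp (-(R * F.a)) + F.off

/-- All pieces are at most `b`. -/
def Below (F : Cons n) (R b : ℝ) (x : Fin n → ℝ) : Prop :=
  ∀ σ v, F.stair.Adm v → F.value R x σ v ≤ b

/-- A piece attaining the maximum. -/
def IsTop (F : Cons n) (R : ℝ) (x : Fin n → ℝ) (σ : Equiv.Perm (Fin F.m))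
    (v : Fin F.m → ℝ) : Prop :=
  F.stair.Adm v ∧ ∀ σ' v', F.stair.Adm v' → F.value R x σ' v' ≤ F.value R x σ v

lemma lin_eq_piece (F : Cons n) {R : ℝ} {x ξ : Fin n → ℝ}
    (h : ∀ i, x i = Real.exp (R * ξ i)) (σ : Equiv.Perm (Fin F.m)) (v : Fin F.m → ℝ) :
    F.lin R x σ v = F.stair.piece R (fun j => ξ (F.emb j)) σ v := by
  simp only [lin, Stair.piece, h, Finset.sum_sub_distrib]

lemma isBest (F : Cons n) {R : ℝ} {x ξ : Fin n → ℝ}
    (h : ∀ i, x i = Real.exp (R * ξ i)) {σ : Equiv.Perm (Fin F.m)} {v : Fin F.m → ℝ}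
    (ht : F.IsTop R x σ v) : F.stair.IsBest R (fun j => ξ (F.emb j)) σ v := by
  refine ⟨ht.1, fun σ' v' hv' => ?_⟩
  have := ht.2 σ' v' hv'
  simp only [value, lin_eq_piece F h] at this
  exact le_of_mul_le_mul_right (by linarith) (Real.exp_pos (-(R * F.a)))

end Cons

lemma monomial_exp {x ξ : Fin n → ℝ} {R : ℝ} (h : ∀ i, x i = Real.exp (R * ξ i))
    (y : Fin n → ℕ) : monomial x y = Real.exp (R * ∑ i, (y i : ℝ) * ξ i) := by
  simp only [monomial, h, Finset.mul_sum, Real.exp_sum, ← Real.exp_nat_mul]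
  exact Finset.prod_congr rfl fun i _ => by ring_nf

lemma monomial_pos {x : Fin n → ℝ} (h : ∀ i, 0 < x i) (y : Fin n → ℕ) : 0 < monomial x y :=
  Finset.prod_pos fun i _ => pow_pos (h i) _

open scoped Classical in
/-- The complexes occurring in the reactions. -/
noncomputable def complexes (R : Finset (Reaction n)) : Finset (Fin n → ℕ) :=
  R.image Prod.fst ∪ R.image Prod.snd

open scoped Classical in
/-- All differences of two complexes. -/
noncomputable def diffs (R : Finset (Reaction n)) : Finset (Fin n → ℝ) :=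
  (complexes R ×ˢ complexes R).image fun p i => (p.1 i : ℝ) - (p.2 i : ℝ)

open scoped Classical in
/-- The differences read on `m` coordinates. -/
noncomputable def baseFamily (R : Finset (Reaction n)) (m : ℕ) : Finset (Fin m → ℝ) :=
  (diffs R ×ˢ (univ : Finset (Fin m → Fin n))).image fun p l => p.1 (p.2 l)

lemma diff_mem {R : Finset (Reaction n)} {u v : Fin n → ℕ}
    (h : Relation.ReflTransGen (Step R) u v) (hne : u ≠ v) :
    (fun i => (u i : ℝ) - (v i : ℝ)) ∈ diffs R := by
  classical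
  have hu : u ∈ complexes R := by
    rcases Relation.ReflTransGen.cases_head h with rfl | ⟨w, hw, -⟩
    · exact absurd rfl hne
    · exact Finset.mem_union_left _ (Finset.mem_image.2 ⟨(u, w), hw, rfl⟩)
  have hv : v ∈ complexes R := by
    rcases Relation.ReflTransGen.cases_tail h with rfl | ⟨w, -, hw⟩
    · exact absurd rfl hne
    · exact Finset.mem_union_right _ (Finset.mem_image.2 ⟨(w, v), hw, rfl⟩)
  simp only [diffs, Finset.mem_image]
  exact ⟨(u, v), Finset.mem_product.2 ⟨hu, hv⟩, rfl⟩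

/-- The speed of change of a linear form with values `v` on the coordinates `f`. -/
noncomputable def formSpeed (R : Finset (Reaction n)) (k : Reaction n → ℝ) (x : Fin n → ℝ)
    {m : ℕ} (f : Fin m → Fin n) (v : Fin m → ℝ) : ℝ :=
  ∑ l, v l * massAction R k x (f l)

lemma formSpeed_eq (R : Finset (Reaction n)) (k : Reaction n → ℝ) (x : Fin n → ℝ)
    {m : ℕ} (f : Fin m → Fin n) (v : Fin m → ℝ) :
    formSpeed R k x f v = ∑ r ∈ R, k r * monomial x r.1 *
      ((∑ l, v l * (r.2 (f l) : ℝ)) - ∑ l, v l * (r.1 (f l) : ℝ)) := by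
  simp only [formSpeed, massAction, reactionVector, Finset.mul_sum]
  rw [Finset.sum_comm]
  refine Finset.sum_congr rfl fun r _ => ?_
  rw [← Finset.sum_sub_distrib, Finset.mul_sum]
  exact Finset.sum_congr rfl fun l _ => by ring

/-- The descent at a rounded point. -/
lemma formSpeed_neg {Rn : Finset (Reaction n)} {k : Reaction n → ℝ} {ε : ℝ}
    (hε : ∀ a z : (Fin n → ℕ) → ℝ, (∀ v, 0 < z v) → Graded Rn ε a z →
      (∃ r ∈ Rn, a r.2 ≠ a r.1) → ∑ r ∈ Rn, k r * z r.1 * (a r.2 - a r.1) < 0)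
    {m : ℕ} {f : Fin m → Fin n} (hf : Function.Injective f) {v : Fin m → ℝ} {c x ξ : Fin n → ℝ}
    {R ρ W : ℝ} (hR : 0 < R) (hx : ∀ i, x i = Real.exp (R * ξ i)) (hρW : 2 * W ≤ ρ)
    (hsig : ∀ e ∈ baseFamily Rn m, (0 < ∑ l, e l * v l → ρ ≤ ∑ l, e l * ξ (f l)) ∧
      (∑ l, e l * v l < 0 → ∑ l, e l * ξ (f l) ≤ -ρ))
    (hout : ∀ d ∈ diffs Rn, ∀ S : Finset (Fin n), (∀ i ∈ S, ∀ l, f l ≠ i) →
      |∑ i ∈ S, d i * ξ i| ≤ W)
    (hεR : Real.exp (-(R * (ρ / 2))) ≤ ε) (hclass : x - c ∈ stoichSubspace Rn)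
    (hnc : ∑ l, v l * x (f l) ≠ ∑ l, v l * c (f l)) :
    formSpeed Rn k x f v < 0 := by
  classical
  rw [formSpeed_eq]
  refine hε (fun y => ∑ l, v l * (y (f l) : ℝ)) (monomial x)
    (fun y => monomial_pos (fun i => hx i ▸ Real.exp_pos _) y) (fun u w huw hlt => ?_) ?_
  · have hne : u ≠ w := fun h => by subst h; exact lt_irrefl _ hlt
    set d : Fin n → ℝ := fun i => (u i : ℝ) - (w i : ℝ) with hd
    have hdm : d ∈ diffs Rn := diff_mem huw hne
    have hem : (fun l => d (f l)) ∈ baseFamily Rn m := by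
      simp only [baseFamily, Finset.mem_image]
      exact ⟨(d, f), by simp [hdm], rfl⟩
    have hpos : 0 < ∑ l, d (f l) * v l := by
      have : ∑ l, d (f l) * v l =
          (∑ l, v l * (u (f l) : ℝ)) - ∑ l, v l * (w (f l) : ℝ) := by
        rw [← Finset.sum_sub_distrib]
        exact Finset.sum_congr rfl fun l _ => by simp only [hd]; ring
      linarith
    have hin := (hsig _ hem).1 hpos
    have hsplit : (∑ i ∈ univ.image f, d i * ξ i) + ∑ i ∈ univ \ univ.image f, d i * ξ i =
        ∑ i, d i * ξ i := by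
      rw [add_comm, Finset.sum_sdiff (Finset.subset_univ _)]
    rw [Finset.sum_image hf.injOn] at hsplit
    have hrest := abs_le.1 (hout d hdm (univ \ univ.image f) (fun i hi l h => by
      simp only [Finset.mem_sdiff, Finset.mem_image] at hi
      exact hi.2 ⟨l, Finset.mem_univ _, h⟩))
    have htot : ρ / 2 ≤ ∑ i, d i * ξ i := by linarith
    have hdd : ∑ i, d i * ξ i = (∑ i, (u i : ℝ) * ξ i) - ∑ i, (w i : ℝ) * ξ i := by
      rw [← Finset.sum_sub_distrib]
      exact Finset.sum_congr rfl fun i _ => by simp only [hd]; ring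
    rw [monomial_exp hx, monomial_exp hx]
    calc Real.exp (R * ∑ i, (w i : ℝ) * ξ i)
        ≤ Real.exp (-(R * (ρ / 2))) * Real.exp (R * ∑ i, (u i : ℝ) * ξ i) := by
          rw [← Real.exp_add]
          refine Real.exp_le_exp.2 ?_
          have := mul_le_mul_of_nonneg_left htot hR.le
          rw [hdd] at this
          linarith
      _ ≤ ε * Real.exp (R * ∑ i, (u i : ℝ) * ξ i) :=
          mul_le_mul_of_nonneg_right hεR (Real.exp_pos _).le
  · by_contra hcon
    simp only [not_exists, not_and, not_not] at hcon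
    apply hnc
    let φ : (Fin n → ℝ) →ₗ[ℝ] ℝ :=
      { toFun := fun y => ∑ l, v l * y (f l)
        map_add' := fun y z => by simp only [Pi.add_apply, mul_add, Finset.sum_add_distrib]
        map_smul' := fun s y => by
          simp only [Pi.smul_apply, smul_eq_mul, RingHom.id_apply, Finset.mul_sum]
          exact Finset.sum_congr rfl fun l _ => by ring }
    have hle : stoichSubspace Rn ≤ LinearMap.ker φ := by
      refine Submodule.span_le.2 ?_
      rintro _ ⟨r, hr, rfl⟩
      simp only [SetLike.mem_coe, LinearMap.mem_ker]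
      show ∑ l, v l * reactionVector r (f l) = 0
      simp only [reactionVector, mul_sub, Finset.sum_sub_distrib, hcon r hr, sub_self]
    have h0 := hle hclass
    simp only [LinearMap.mem_ker, map_sub, sub_eq_zero] at h0
    exact h0

/-- The chosen constants: eventually in `R`, the bodies are bounded and the flow points inwards. -/
theorem exists_bodies {Rn : Finset (Reaction n)} {k : Reaction n → ℝ}
    (hW : WeaklyReversible Rn) (hk : ∀ r ∈ Rn, 0 < k r) {c : Fin n → ℝ} (hc : ∀ i, 0 < c i) :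
    ∃ (F : Option (Σ m : Fin n, (Fin (m.val + 1) ↪ Fin n)) → Cons n) (L : ℝ),
      (∀ᶠ R in atTop, ∀ x : Fin n → ℝ, (∀ j, (F j).Below R (1 / 4) x) →
        (∀ i, 0 < x i ∧ Real.exp (-(L * R)) ≤ x i ∧ x i ≤ Real.exp (L * R)) ∧
        (x - c ∈ stoichSubspace Rn → ∀ j σ v, (F j).IsTop R x σ v →
          -(1 / 4) ≤ (F j).value R x σ v →
          formSpeed Rn k x (fun l => (F j).emb (σ l)) v < 0)) ∧
      (∀ x : Fin n → ℝ, (∀ i, 0 < x i) → ∀ᶠ R in atTop, ∀ j, (F j).Below R 0 x) := by
  classical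
  obtain ⟨ε, hε, hdesc⟩ := exists_descent hW hk
  choose κ C Λ hgood using fun m : ℕ => Stair.exists_constants (baseFamily Rn m)
  have hΛ : ∀ m, 20 ≤ Λ m := fun m => (hgood m 1 0 0 one_pos).twenty_le_lam
  let Δ : ℝ := 1 + ∑ d ∈ diffs Rn, ∑ i, |d i|
  have hΔ : 1 ≤ Δ := by
    have : 0 ≤ ∑ d ∈ diffs Rn, ∑ i, |d i| :=
      Finset.sum_nonneg fun d _ => Finset.sum_nonneg fun i _ => abs_nonneg _
    simp only [Δ]; linarith
  let g : ℕ → ℝ := fun j => Nat.rec (1 : ℝ)
    (fun j gj => gj + 2 + 12 * ((4 * Δ * (gj + 2)) * Λ (n - j) ^ (2 ^ (n - j)))) j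
  let s : ℕ → ℝ := fun m => g (n + 1 - m)
  let rr : ℕ → ℝ := fun m => 4 * Δ * (s (m + 1) + 2)
  let TT : ℕ → ℝ := fun m => rr m * Λ m ^ (2 ^ m)
  have hg1 : ∀ j, 1 ≤ g j := by
    intro j
    induction j with
    | zero => simp [g]
    | succ j ih =>
      simp only [g] at ih ⊢
      have : 0 ≤ Λ (n - j) ^ (2 ^ (n - j)) := pow_nonneg (by linarith [hΛ (n - j)]) _
      nlinarith [mul_nonneg (mul_nonneg (by linarith : (0 : ℝ) ≤ 4 * Δ)
        (by linarith : (0 : ℝ) ≤ g j + 2)) this]
  have hs1 : ∀ m, 1 ≤ s m := fun m => hg1 _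
  have hrr : ∀ m, 0 < rr m := fun m => by
    have := hs1 (m + 1); simp only [rr]; positivity
  have hTT : ∀ m, 0 < TT m := fun m =>
    mul_pos (hrr m) (pow_pos (by linarith [hΛ m]) _)
  have hsrec : ∀ m, m ≤ n → s m = s (m + 1) + 2 + 12 * TT m := by
    intro m hm
    show g (n + 1 - m) = _
    rw [show n + 1 - m = (n - m) + 1 by omega]
    show g (n - m) + 2 + 12 * ((4 * Δ * (g (n - m) + 2)) * Λ (n - (n - m)) ^ (2 ^ (n - (n - m))))
      = g (n + 1 - (m + 1)) + 2 + 12 * TT m
    simp only [TT, rr, s, show n - (n - m) = m by omega, show n + 1 - (m + 1) = n - m by omega]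
  have hgm : Monotone g := monotone_nat_of_le_succ fun j => by
    show g j ≤ g j + 2 + 12 * ((4 * Δ * (g j + 2)) * Λ (n - j) ^ (2 ^ (n - j)))
    have : 0 ≤ Λ (n - j) ^ (2 ^ (n - j)) := pow_nonneg (by linarith [hΛ (n - j)]) _
    nlinarith [mul_nonneg (mul_nonneg (by linarith : (0 : ℝ) ≤ 4 * Δ)
      (by linarith [hg1 j] : (0 : ℝ) ≤ g j + 2)) this]
  have hsanti : ∀ {a b : ℕ}, a ≤ b → s b ≤ s a := fun h => hgm (by omega)
  let N : ℕ → ℕ := fun m => ⌈(s 1 + 3 + 12 * TT m) / rr m⌉₊
  let ρ₀ : ℝ := 1 / (50 * Λ n ^ (2 ^ n))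
  have hΛn : 0 < Λ n ^ (2 ^ n) := pow_pos (by linarith [hΛ n]) _
  have hρ₀ : 0 < ρ₀ := by positivity
  let N₀ : ℕ := ⌈(s 1 + 4) / ρ₀⌉₊
  let St : (m : ℕ) → Stair m := fun m => ⟨baseFamily Rn m, rr m, Λ m, N m, 0⟩
  let S₀ : Stair n := ⟨baseFamily Rn n, ρ₀, Λ n, N₀, N₀⟩
  let F : Option (Σ m : Fin n, (Fin (m.val + 1) ↪ Fin n)) → Cons n := fun j => match j with
    | none => ⟨n, id, S₀, 1, -1⟩
    | some p => ⟨p.1.val + 1, p.2, St (p.1.val + 1), -(s (p.1.val + 1)), 1⟩
  have hGt : ∀ m, (St m).Good (κ m) (C m) := fun m => hgood m _ _ _ (hrr m)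
  have hG₀ : S₀.Good (κ n) (C n) := hgood n _ _ _ hρ₀
  have hbandt : ∀ m, (St m).maxBand = TT m := fun m => rfl
  have hband₀ : S₀.maxBand = 1 / 50 := by
    show ρ₀ * Λ n ^ (2 ^ n) = _
    simp only [ρ₀]; field_simp
  have hlot : ∀ m, (St m).lo ≤ -(s 1 + 3 + 12 * TT m) := fun m => by
    have h : (s 1 + 3 + 12 * TT m) / rr m ≤ (N m : ℝ) := Nat.le_ceil _
    rw [div_le_iff₀ (hrr m)] at h
    show -((N m : ℝ) * rr m) ≤ _
    linarith
  have hhit : ∀ m, (St m).hi = 0 := fun m => by simp [St, Stair.hi]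
  have hhi₀ : s 1 + 4 ≤ S₀.hi := by
    have h : (s 1 + 4) / ρ₀ ≤ (N₀ : ℝ) := Nat.le_ceil _
    rw [div_le_iff₀ hρ₀] at h
    exact h
  have hlo₀ : S₀.lo = -S₀.hi := rfl
  obtain ⟨B₀, hB₀⟩ := Stair.exists_large_piece hG₀ (by linarith [hs1 1])
    (by rw [hband₀]; linarith [hs1 1])
  obtain ⟨A₀, hA₀⟩ := Stair.exists_rounding hG₀ (μ := ρ₀ / 4) (by positivity) (by linarith)
  choose γ hγ0 hγ using fun m => Stair.exists_negative (hGt m) (hhit m)
    (by linarith [hlot m, hs1 1, hTT m])
  choose A hA using fun m => Stair.exists_rounding (hGt m) (μ := rr m / 4)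
    (by linarith [hrr m]) (by linarith)
  refine ⟨F, s 1 + 2, ?_, ?_⟩
  · -- eventual conditions
    have hpm : ∀ m : ℕ, ∀ᶠ R in atTop, A m < Real.exp (R * (rr m / 4)) ∧
        2 * (m : ℝ) * (-(St m).lo) < Real.exp (R * (1 / 4)) ∧
        2 / γ m < Real.exp (R * (1 / 4)) ∧ ε⁻¹ < Real.exp (R * (rr m / 2)) := fun m =>
      (eventually_exp_gt _ _ (by linarith [hrr m])).and ((eventually_exp_gt _ _ (by norm_num)).and
        ((eventually_exp_gt _ _ (by norm_num)).and (eventually_exp_gt _ _ (by linarith [hrr m]))))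
    have hall : ∀ᶠ R in atTop, ∀ m : Fin (n + 1), A m.val < Real.exp (R * (rr m.val / 4)) ∧
        2 * (m.val : ℝ) * (-(St m.val).lo) < Real.exp (R * (1 / 4)) ∧
        2 / γ m.val < Real.exp (R * (1 / 4)) ∧ ε⁻¹ < Real.exp (R * (rr m.val / 2)) :=
      eventually_all.2 fun m => hpm m.val
    filter_upwards [hall, eventually_exp_gt A₀ (ρ₀ / 4) (by positivity),
      eventually_exp_gt ε⁻¹ (ρ₀ / 2) (by positivity),
      eventually_exp_gt ((2 + 2 * |B₀|) / ρ₀) (1 / 4) (by norm_num),
      eventually_exp_gt (2 * (n : ℝ) * S₀.hi) (1 / 4) (by norm_num),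
      eventually_exp_gt (2 * (S₀.hi * ∑ i, c i)) 1 one_pos,
      eventually_all.2 fun i => eventually_exp_gt (2 / c i) 1 one_pos,
      eventually_gt_atTop (0 : ℝ)] with R hsub hRA hRε hRtop hRn hRc hRci hR x hbelow
    have hx : ∀ i, 0 < x i := by
      intro i
      have hb := hbelow (some ⟨⟨0, Fin.pos i⟩,
        ⟨fun _ => i, fun a b _ => Fin.ext (by have := a.2; have := b.2; simp only at *; omega)⟩⟩)
        (1 : Equiv.Perm (Fin 1)) (fun _ => (St 1).lo) Stair.adm_lo
      simp only [F, Cons.value, Cons.lin, zero_add, Function.Embedding.coeFn_mk] at hb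
      simp only [Stair.cost_lo R (v := fun _ : Fin 1 => (St 1).lo) rfl, Finset.sum_const_zero,
        sub_zero] at hb
      change (∑ _j : Fin 1, x i * (St 1).lo) * Real.exp (-(R * -(s 1))) + 1 ≤ 1 / 4 at hb
      rw [Fin.sum_univ_one] at hb
      by_contra hcon
      rw [not_lt] at hcon
      have h1 : 0 ≤ x i * (St 1).lo :=
        mul_nonneg_of_nonpos_of_nonpos hcon (by linarith [hlot 1, hs1 1, hTT 1])
      have h2 := mul_nonneg h1 (Real.exp_pos (-(R * -(s 1)))).le
      linarith
    let ξ : Fin n → ℝ := fun i => Real.log (x i) / R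
    have hxξ : ∀ i, x i = Real.exp (R * ξ i) := fun i => by
      simp only [ξ]
      rw [mul_div_cancel₀ _ hR.ne', Real.exp_log (hx i)]
    have hexp_le : ∀ {a b : ℝ}, Real.exp (R * a) ≤ Real.exp (R * b) → a ≤ b := fun h =>
      le_of_mul_le_mul_left (Real.exp_le_exp.1 h) hR
    have hexp_lt : ∀ {a b : ℝ}, Real.exp (R * a) < Real.exp (R * b) → a < b := fun h =>
      lt_of_mul_lt_mul_left (Real.exp_lt_exp.1 h) hR.le
    -- upper bound from the top constraint
    have hupper : ∀ i, ξ i ≤ 1 + 1 / 4 := by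
      intro i
      obtain ⟨v, hv, hpiece⟩ := hB₀ R ξ hR i
      have hb := hbelow none 1 v hv
      simp only [F, Cons.value, Cons.lin_eq_piece ⟨n, id, S₀, 1, -1⟩ hxξ, id] at hb
      have h1 : S₀.piece R ξ 1 v ≤ 5 / 4 * Real.exp (R * 1) := by
        have := mul_le_mul_of_nonneg_right
          (show S₀.piece R ξ 1 v * Real.exp (-(R * 1)) ≤ (5 / 4 : ℝ) by linarith)
          (Real.exp_pos (R * 1)).le
        rwa [mul_assoc, ← Real.exp_add, neg_add_cancel, Real.exp_zero, mul_one] at this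
      rw [hband₀] at hpiece
      have h2 : B₀ * Real.exp (R * (2 * (1 / 50))) ≤ |B₀| * Real.exp (R * 1) :=
        mul_le_mul (le_abs_self _) (Real.exp_le_exp.2 (by nlinarith)) (Real.exp_pos _).le
          (abs_nonneg _)
      rw [div_lt_iff₀ hρ₀] at hRtop
      have h3 := mul_lt_mul_of_pos_right hRtop (Real.exp_pos (R * 1))
      have h4 : ρ₀ * Real.exp (R * ξ i) < ρ₀ * (Real.exp (R * (1 / 4)) * Real.exp (R * 1)) := by
        have := Real.exp_pos (R * 1)
        have := mul_nonneg (abs_nonneg B₀) (Real.exp_pos (R * 1)).le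
        rw [show (S₀.ρ : ℝ) = ρ₀ from rfl] at hpiece
        linarith
      have h5 := lt_of_mul_lt_mul_left h4 hρ₀.le
      rw [← Real.exp_add, ← mul_add] at h5
      linarith [hexp_lt h5]
    -- lower bounds from the other constraints
    have hbig : ∀ (p : Σ m : Fin n, (Fin (m.val + 1) ↪ Fin n)),
        ∃ j, -(s (p.1.val + 1)) - 1 / 4 ≤ ξ (p.2 j) := by
      intro p
      let S := St (p.1.val + 1)
      have hb := hbelow (some p) (1 : Equiv.Perm (Fin (p.1.val + 1))) (fun _ => S.lo) Stair.adm_lo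
      simp only [F, Cons.value,
        Cons.lin_eq_piece ⟨_, p.2, St (p.1.val + 1), -(s (p.1.val + 1)), 1⟩ hxξ] at hb
      rw [Stair.piece_lo] at hb
      by_contra hcon
      simp only [not_exists, not_le] at hcon
      obtain ⟨-, h2, -, -⟩ := hsub ⟨p.1.val + 1, by omega⟩
      simp only at h2
      have hsum : ∑ j, Real.exp (R * ξ (p.2 j)) ≤
          ((p.1.val + 1 : ℕ) : ℝ) * Real.exp (R * (-(s (p.1.val + 1)) - 1 / 4)) := by
        refine (Finset.sum_le_sum fun j _ =>
          Real.exp_le_exp.2 (mul_le_mul_of_nonneg_left (hcon j).le hR.le)).trans ?_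
        simp
      have hlo : S.lo ≤ 0 := by linarith [hlot (p.1.val + 1), hs1 1, hTT (p.1.val + 1)]
      have h3 := mul_le_mul_of_nonpos_left hsum hlo
      have h4 := mul_le_mul_of_nonneg_right h3 (Real.exp_pos (-(R * -(s (p.1.val + 1))))).le
      have e1 : Real.exp (R * (-(s (p.1.val + 1)) - 1 / 4)) *
          Real.exp (-(R * -(s (p.1.val + 1)))) * Real.exp (R * (1 / 4)) = 1 := by
        rw [← Real.exp_add, ← Real.exp_add]; ring_nf; exact Real.exp_zero
      set E := Real.exp (R * (-(s (p.1.val + 1)) - 1 / 4)) *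
          Real.exp (-(R * -(s (p.1.val + 1))))
      have hE : 0 < E := by positivity
      have h5 := mul_lt_mul_of_pos_left h2 hE
      rw [e1] at h5
      nlinarith
    have hlower : ∀ i, -(s 1) - 1 / 4 ≤ ξ i := by
      intro i
      obtain ⟨j, hj⟩ := hbig ⟨⟨0, Fin.pos i⟩, ⟨fun _ => i, fun a b _ => Fin.ext (by have := a.2; have := b.2; simp only at *; omega)⟩⟩
      change -(s 1) - 1 / 4 ≤ ξ i at hj
      exact hj
    refine ⟨fun i => ⟨hx i, ?_⟩, fun hclass j σ v htop hval => ?_⟩
    · rw [hxξ i]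
      constructor <;> refine Real.exp_le_exp.2 ?_
      · nlinarith [hlower i]
      · nlinarith [hupper i, hs1 1]
    cases j with
    | none =>
      simp only [F] at σ v htop hval ⊢
      have hbest := Cons.isBest _ hxξ htop
      obtain ⟨σ', hbest', hsort, hn⟩ := Stair.exists_sorted hR hbest
      have hround := hA₀ R ξ σ' v hR hRA hbest' hsort (fun i => by
        rw [hband₀, hlo₀]
        constructor
        · linarith [hlower i, hhi₀]
        · linarith [hupper i, hhi₀, hs1 1])
      have hsig := (Stair.signs hG₀ hbest'.1.2 hround).2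
      have hspeed : formSpeed Rn k x (fun l => σ l) v = formSpeed Rn k x (fun l => σ' l) v := by
        simp only [formSpeed]
        rw [← Equiv.sum_comp σ.symm (fun l => v l * massAction Rn k x (σ l)),
          ← Equiv.sum_comp σ'.symm (fun l => v l * massAction Rn k x (σ' l))]
        simp [hn]
      show formSpeed Rn k x (fun l => σ l) v < 0
      rw [hspeed]
      refine formSpeed_neg hdesc σ'.injective hR hxξ (W := 0) (ρ := ρ₀) (c := c) (by linarith)
        hsig ?_ ?_ hclass ?_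
      · intro d _ T hT
        have : T = ∅ := Finset.eq_empty_iff_forall_notMem.2 fun i hi =>
          hT i hi (σ'.symm i) (by simp)
        simp [this]
      · rw [Real.exp_neg]
        exact inv_le_of_inv_le₀ hε hRε.le
      · have hxe : ∑ l, v l * x (σ' l) = ∑ l, v l * x (σ l) := by
          rw [← Equiv.sum_comp σ.symm (fun l => v l * x (σ l)),
            ← Equiv.sum_comp σ'.symm (fun l => v l * x (σ' l))]
          simp [hn]
        simp only [Cons.value, Cons.lin, id] at hval
        have hcost : 0 ≤ ∑ l, S₀.cost R v l :=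
          Finset.sum_nonneg fun l _ => Stair.cost_nonneg R v l
        have hcs : ∑ l, v l * c (σ' l) ≤ S₀.hi * ∑ i, c i := by
          rw [← Equiv.sum_comp σ' c, Finset.mul_sum]
          exact Finset.sum_le_sum fun l _ => mul_le_mul_of_nonneg_right
            (Stair.nodes_range hρ₀.le (hbest'.1.2 l)).2 (hc _).le
        have h1 : (3 / 4) * Real.exp (R * 1) ≤ ∑ l, v l * x (σ' l) := by
          have h := mul_le_mul_of_nonneg_right (show (3 / 4 : ℝ) ≤
            ((∑ l, x (σ l) * v l) - ∑ l, S₀.cost R v l) * Real.exp (-(R * 1)) by linarith)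
            (Real.exp_pos (R * 1)).le
          rw [mul_assoc, ← Real.exp_add, neg_add_cancel, Real.exp_zero, mul_one] at h
          have : ∑ l, x (σ l) * v l = ∑ l, v l * x (σ' l) := by
            rw [hxe]; exact Finset.sum_congr rfl fun l _ => mul_comm _ _
          simp only [mul_one] at h ⊢
          linarith
        intro heq
        linarith [Real.exp_pos (R * 1)]
    | some p =>
      obtain ⟨⟨m₀, hm₀⟩, π⟩ := p
      simp only [F] at σ v htop hval ⊢
      obtain ⟨hAm, -, hγm, hεm⟩ := hsub ⟨m₀ + 1, by omega⟩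
      simp only at hAm hγm hεm
      have hbest := Cons.isBest _ hxξ htop
      -- all coordinates of the active constraint are small
      have hsmall : ∀ j, ξ (π j) ≤ -(s (m₀ + 1)) + 1 / 4 := by
        intro j
        have hp := hγ (m₀ + 1) R (fun l => ξ (π l)) σ v hR hbest.1 (σ.symm j)
        rw [Equiv.apply_symm_apply] at hp
        simp only [Cons.value, Cons.lin_eq_piece ⟨_, π, St (m₀ + 1), -(s (m₀ + 1)), 1⟩ hxξ] at hval
        set E := Real.exp (R * min (ξ (π j)) (-(2 * (St (m₀ + 1)).maxBand)))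
        have h1 : γ (m₀ + 1) * E * Real.exp (-(R * -(s (m₀ + 1)))) ≤ 5 / 4 := by
          have := mul_le_mul_of_nonneg_right hp (Real.exp_pos (-(R * -(s (m₀ + 1))))).le
          linarith
        rw [div_lt_iff₀ (hγ0 _)] at hγm
        have h3 : E * Real.exp (-(R * -(s (m₀ + 1)))) < Real.exp (R * (1 / 4)) :=
          lt_of_mul_lt_mul_left (by
            calc γ (m₀ + 1) * (E * Real.exp (-(R * -(s (m₀ + 1))))) ≤ 5 / 4 := by linarith
              _ < 2 := by norm_num
              _ < γ (m₀ + 1) * Real.exp (R * (1 / 4)) := by linarith) (hγ0 _).le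
        rw [← Real.exp_add, show R * min (ξ (π j)) (-(2 * (St (m₀ + 1)).maxBand)) +
          -(R * -(s (m₀ + 1))) =
          R * (min (ξ (π j)) (-(2 * (St (m₀ + 1)).maxBand)) + s (m₀ + 1)) by ring] at h3
        have h4 := hexp_lt h3
        rcases min_choice (ξ (π j)) (-(2 * (St (m₀ + 1)).maxBand)) with h | h
        · rw [h] at h4; linarith
        · rw [h, hbandt] at h4
          linarith [hsrec (m₀ + 1) (by omega), hs1 (m₀ + 1 + 1), hTT (m₀ + 1)]
      obtain ⟨σ', hbest', hsort, hn⟩ := Stair.exists_sorted hR hbest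
      have hround := hA (m₀ + 1) R (fun l => ξ (π l)) σ' v hR hAm hbest' hsort (fun i => by
        rw [hbandt, hhit]
        constructor
        · linarith [hlot (m₀ + 1), hlower (π i), hTT (m₀ + 1)]
        · linarith [hsmall i, hsrec (m₀ + 1) (by omega), hs1 (m₀ + 1 + 1), hTT (m₀ + 1)])
      obtain ⟨hnear, hsig⟩ := Stair.signs (ξ := fun l => ξ (π l)) (hGt (m₀ + 1)) hbest'.1.2 hround
      have hspeed : formSpeed Rn k x (fun l => π (σ l)) v =
          formSpeed Rn k x (fun l => π (σ' l)) v := by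
        simp only [formSpeed]
        rw [← Equiv.sum_comp σ.symm (fun l => v l * massAction Rn k x (π (σ l))),
          ← Equiv.sum_comp σ'.symm (fun l => v l * massAction Rn k x (π (σ' l)))]
        simp [hn]
      show formSpeed Rn k x (fun l => π (σ l)) v < 0
      rw [hspeed]
      refine formSpeed_neg hdesc (π.injective.comp σ'.injective) hR hxξ
        (W := Δ * (s (m₀ + 1 + 1) + 2)) (ρ := rr (m₀ + 1)) (c := c) ?_ hsig ?_ ?_ hclass ?_
      · simp only [rr]; linarith [mul_nonneg (by linarith : (0 : ℝ) ≤ Δ)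
          (by linarith [hs1 (m₀ + 1 + 1)] : (0 : ℝ) ≤ s (m₀ + 1 + 1) + 2)]
      · intro d hd T hT
        have hξT : ∀ i ∈ T, |ξ i| ≤ s (m₀ + 1 + 1) + 2 := by
          intro i hi
          have hout : ∀ j, π j ≠ i := fun j h => hT i hi (σ'.symm j) (by simp [h])
          have hcard : m₀ + 1 < n := by
            have h1 : (univ.map π) ⊆ univ.erase i := fun a ha => by
              obtain ⟨j, -, rfl⟩ := Finset.mem_map.1 ha
              exact Finset.mem_erase.2 ⟨hout j, Finset.mem_univ _⟩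
            have h2 := Finset.card_le_card h1
            simp at h2
            omega
          obtain ⟨j, hj⟩ := hbig ⟨⟨m₀ + 1, hcard⟩, ⟨Fin.cons i π,
            Fin.cons_injective_iff.2 ⟨fun ⟨j, hj⟩ => hout j hj, π.injective⟩⟩⟩
          simp only [Function.Embedding.coeFn_mk] at hj
          have hlb : -(s (m₀ + 1 + 1)) - 1 / 4 ≤ ξ i := by
            refine Fin.cases (fun h => by simpa using h) (fun l h => ?_) j hj
            simp only [Fin.cons_succ] at h
            linarith [hsmall l, hsrec (m₀ + 1) (by omega), hTT (m₀ + 1)]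
          exact abs_le.2 ⟨by linarith, by linarith [hupper i, hs1 (m₀ + 1 + 1)]⟩
        refine (Finset.abs_sum_le_sum_abs _ _).trans (le_trans
          (Finset.sum_le_sum (g := fun i => |d i| * (s (m₀ + 1 + 1) + 2)) fun i hi => ?_) ?_)
        · rw [abs_mul]
          exact mul_le_mul_of_nonneg_left (hξT i hi) (abs_nonneg _)
        · rw [← Finset.sum_mul]
          refine mul_le_mul_of_nonneg_right ?_ (by linarith [hs1 (m₀ + 1 + 1)])
          have h1 := Finset.sum_le_univ_sum_of_nonneg (s := T) (f := fun i => |d i|)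
            fun i => abs_nonneg _
          have h2 := Finset.single_le_sum (f := fun d : Fin n → ℝ => ∑ i, |d i|)
            (fun d _ => Finset.sum_nonneg fun i _ => abs_nonneg _) hd
          simp only [Δ]
          linarith
      · rw [Real.exp_neg]
        exact inv_le_of_inv_le₀ hε hεm.le
      · have hvneg : ∀ l, v l ≤ -1 := fun l => by
          have := abs_le.1 (hnear l)
          rw [hbandt] at this
          linarith [hsmall (σ' l), hsrec (m₀ + 1) (by omega), hs1 (m₀ + 1 + 1),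
            hTT (m₀ + 1)]
        simp only [Cons.value, Cons.lin_eq_piece ⟨_, π, St (m₀ + 1), -(s (m₀ + 1)), 1⟩ hxξ] at hval
        have hpe : (St (m₀ + 1)).piece R (fun l => ξ (π l)) σ' v =
            (St (m₀ + 1)).piece R (fun l => ξ (π l)) σ v :=
          le_antisymm (hbest.2 σ' v hbest'.1) (hbest'.2 σ v hbest.1)
        have hpiece : (St (m₀ + 1)).piece R (fun l => ξ (π l)) σ' v ≤
            ∑ l, v l * x (π (σ' l)) := by
          simp only [Stair.piece]
          exact Finset.sum_le_sum fun l _ => by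
            rw [hxξ]
            linarith [Stair.cost_nonneg (S := St (m₀ + 1)) R v l]
        have hxv : -(5 / 4) * Real.exp (R * -(s (m₀ + 1))) ≤ ∑ l, v l * x (π (σ' l)) := by
          have h := mul_le_mul_of_nonneg_right (show (-(5 / 4) : ℝ) ≤
            (St (m₀ + 1)).piece R (fun l => ξ (π l)) σ' v * Real.exp (-(R * -(s (m₀ + 1)))) by
              rw [hpe]; linarith) (Real.exp_pos (R * -(s (m₀ + 1)))).le
          rw [mul_assoc, ← Real.exp_add, neg_add_cancel, Real.exp_zero, mul_one] at h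
          linarith
        have hcs : ∑ l, v l * c (π (σ' l)) ≤ -(c (π (σ' 0))) := by
          rw [← Finset.add_sum_erase _ _ (Finset.mem_univ (0 : Fin (m₀ + 1)))]
          have h2 : ∑ l ∈ univ.erase (0 : Fin (m₀ + 1)), v l * c (π (σ' l)) ≤ 0 :=
            Finset.sum_nonpos fun l _ =>
              mul_nonpos_of_nonpos_of_nonneg (by linarith [hvneg l]) (hc _).le
          have h3 := mul_le_mul_of_nonneg_right (hvneg 0) (hc (π (σ' 0))).le
          linarith
        intro heq
        simp only [Function.comp_apply] at heq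
        have h1 := hRci (π (σ' 0))
        rw [div_lt_iff₀ (hc _)] at h1
        have h2 : Real.exp (R * -(s (m₀ + 1))) ≤ Real.exp (-(R * 1)) :=
          Real.exp_le_exp.2 (by nlinarith [hs1 (m₀ + 1)])
        have h3 : Real.exp (-(R * 1)) * Real.exp (R * 1) = 1 := by
          rw [← Real.exp_add, neg_add_cancel, Real.exp_zero]
        have h4 := mul_lt_mul_of_pos_left h1 (Real.exp_pos (-(R * 1)))
        rw [show Real.exp (-(R * 1)) * (Real.exp (R * 1) * c (π (σ' 0))) = c (π (σ' 0)) by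
          rw [← mul_assoc, h3, one_mul]] at h4
        linarith [Real.exp_pos (-(R * 1))]
  · intro x hx
    have hpm : ∀ m : Fin (n + 1), ∀ i, ∀ᶠ R in atTop,
        1 / (γ m.val * x i) < Real.exp (R * 1) ∧
          1 / γ m.val < Real.exp (R * (1 / 2)) := fun m i =>
      (eventually_exp_gt _ _ one_pos).and (eventually_exp_gt _ _ (by norm_num))
    filter_upwards [eventually_all.2 fun m => eventually_all.2 (hpm m),
      eventually_exp_gt (S₀.hi * ∑ i, x i) 1 one_pos, eventually_gt_atTop (0 : ℝ)]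
      with R hsub htop hR j σ v hv
    let ξ : Fin n → ℝ := fun i => Real.log (x i) / R
    have hxξ : ∀ i, x i = Real.exp (R * ξ i) := fun i => by
      simp only [ξ]
      rw [mul_div_cancel₀ _ hR.ne', Real.exp_log (hx i)]
    cases j with
    | none =>
      simp only [F] at σ v hv ⊢
      simp only [Cons.value, Cons.lin_eq_piece ⟨n, id, S₀, 1, -1⟩ hxξ, id]
      have h := (Stair.piece_le (S := S₀) hρ₀.le R ξ σ hv)
      simp only [← hxξ] at h
      have h2 := mul_le_mul_of_nonneg_right (h.trans htop.le) (Real.exp_pos (-(R * 1))).le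
      rw [← Real.exp_add, add_neg_cancel, Real.exp_zero] at h2
      linarith
    | some p =>
      obtain ⟨⟨m₀, hm₀⟩, π⟩ := p
      simp only [F] at σ v hv ⊢
      simp only [Cons.value, Cons.lin_eq_piece ⟨_, π, St (m₀ + 1), -(s (m₀ + 1)), 1⟩ hxξ]
      have hp := hγ (m₀ + 1) R (fun l => ξ (π l)) σ v hR hv (σ.symm 0)
      rw [Equiv.apply_symm_apply] at hp
      obtain ⟨h1, h2⟩ := hsub ⟨m₀ + 1, by omega⟩ (π 0)
      simp only at h1 h2
      have h2' := mul_le_mul_of_nonneg_right hp (Real.exp_pos (-(R * -(s (m₀ + 1))))).le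
      suffices 1 ≤ γ (m₀ + 1) * Real.exp (R * min (ξ (π 0)) (-(2 * (St (m₀ + 1)).maxBand))) *
          Real.exp (-(R * -(s (m₀ + 1)))) by linarith
      rcases min_choice (ξ (π 0)) (-(2 * (St (m₀ + 1)).maxBand)) with h | h
      · rw [h, ← hxξ]
        rw [div_lt_iff₀ (mul_pos (hγ0 _) (hx _))] at h1
        have h3 : Real.exp (R * 1) ≤ Real.exp (-(R * -(s (m₀ + 1)))) :=
          Real.exp_le_exp.2 (by nlinarith [hs1 (m₀ + 1)])
        nlinarith [mul_le_mul_of_nonneg_left h3 (mul_pos (hγ0 (m₀ + 1)) (hx (π 0))).le]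
      · rw [h]
        rw [div_lt_iff₀ (hγ0 _)] at h2
        have h3 : Real.exp (R * (1 / 2)) ≤
            Real.exp (R * -(2 * (St (m₀ + 1)).maxBand)) * Real.exp (-(R * -(s (m₀ + 1)))) := by
          rw [← Real.exp_add]
          refine Real.exp_le_exp.2 ?_
          rw [hbandt]
          nlinarith [hsrec (m₀ + 1) (by omega), hs1 (m₀ + 1 + 1), hTT (m₀ + 1)]
        nlinarith [mul_le_mul_of_nonneg_left h3 (hγ0 (m₀ + 1)).le]

end Vale.Agent.P072
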