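import Mathlib.Analysis.ODE.ExistUnique
import Mathlib.Analysis.Calculus.ContDiff.RCLike
import Mathlib.Analysis.Calculus.MeanValue
import Mathlib.Analysis.Calculus.Deriv.Slope
import Mathlib.Algebra.Order.Floor.Semiring

/-! # Global solutions of bounded Lipschitz equations and maxima of finitely many functions -/

namespace Vale.Agent.P072

open Set Filter
open scoped Topology NNReal

variable {E : Type*} [NormedAddCommGroup E] [NormedSpace ℝ E]

lemma solution_right {f : E → E} {x : ℝ → E} {T t : ℝ}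
    (hx : ∀ s ∈ Icc 0 T, HasDerivWithinAt x (f (x s)) (Icc 0 T) s) (ht : t ∈ Ico 0 T) :
    HasDerivWithinAt x (f (x t)) (Ici t) t :=
  (hx t (Ico_subset_Icc_self ht)).mono_of_mem_nhdsWithin (Icc_mem_nhdsGE_of_mem ht)

/-- Two solutions of a smooth equation with the same initial value agree. -/
lemma solution_unique [FiniteDimensional ℝ E] {f : E → E} (hf : ContDiff ℝ 1 f) {T : ℝ}
    {x y : ℝ → E} (hx : ∀ s ∈ Icc 0 T, HasDerivWithinAt x (f (x s)) (Icc 0 T) s)
    (hy : ∀ s ∈ Icc 0 T, HasDerivWithinAt y (f (y s)) (Icc 0 T) s) (h0 : x 0 = y 0) :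
    EqOn x y (Icc 0 T) := by
  have hxc : ContinuousOn x (Icc 0 T) := fun s hs => (hx s hs).continuousWithinAt
  have hyc : ContinuousOn y (Icc 0 T) := fun s hs => (hy s hs).continuousWithinAt
  obtain ⟨r, hr⟩ := ((isCompact_Icc.image_of_continuousOn hxc).union
    (isCompact_Icc.image_of_continuousOn hyc)).isBounded.subset_closedBall (0 : E)
  have := FiniteDimensional.proper ℝ E
  obtain ⟨K, hK⟩ := (hf.contDiffOn (s := Metric.closedBall (0 : E) r)).exists_lipschitzOnWith
    one_ne_zero (convex_closedBall _ _) (isCompact_closedBall _ _)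
  refine ODE_solution_unique_of_mem_Icc_right (v := fun _ => f)
    (s := fun _ => Metric.closedBall (0 : E) r) (fun _ _ => hK) hxc (fun t ht => solution_right hx ht)
    (fun t ht => hr (Or.inl ⟨t, Ico_subset_Icc_self ht, rfl⟩)) hyc
    (fun t ht => solution_right hy ht) (fun t ht => hr (Or.inr ⟨t, Ico_subset_Icc_self ht, rfl⟩)) h0

/-- A bounded Lipschitz equation has a solution for all positive times. -/
theorem exists_global_solution [CompleteSpace E] {g : E → E} {K L : ℝ≥0}
    (hK : LipschitzWith K g) (hL : ∀ x, ‖g x‖ ≤ L) (x₀ : E) :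
    ∃ x : ℝ → E, x 0 = x₀ ∧ ∀ t, 0 ≤ t → HasDerivWithinAt x (g (x t)) (Ici 0) t := by
  have hex : ∀ N : ℕ, ∃ α : ℝ → E, α 0 = x₀ ∧
      ∀ t ∈ Icc (0 : ℝ) (N + 1), HasDerivWithinAt α (g (α t)) (Icc (0 : ℝ) (N + 1)) t := fun N => by
    have hN : (0 : ℝ) ∈ Icc (0 : ℝ) (N + 1) := ⟨le_rfl, by positivity⟩
    refine IsPicardLindelof.exists_eq_forall_mem_Icc_hasDerivWithinAt₀
      (f := fun _ => g) (t₀ := ⟨0, hN⟩) (x₀ := x₀) (a := L * ((N : ℝ≥0) + 1)) (L := L) (K := K)
      (IsPicardLindelof.of_time_independent (fun x _ => hL x) hK.lipschitzOnWith ?_)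
    have : (0 : ℝ) ≤ (N : ℝ) + 1 := by positivity
    simp [max_eq_left this]
  choose α hα0 hα using hex
  have hagree : ∀ M N : ℕ, M ≤ N → EqOn (α M) (α N) (Icc (0 : ℝ) (M + 1)) := by
    intro M N hMN
    have hsub : Icc (0 : ℝ) (M + 1) ⊆ Icc (0 : ℝ) (N + 1) :=
      Icc_subset_Icc_right (by have : (M : ℝ) ≤ N := Nat.cast_le.2 hMN; linarith)
    exact ODE_solution_unique_of_mem_Icc_right (v := fun _ => g) (s := fun _ => univ)
      (fun _ _ => hK.lipschitzOnWith)
      (fun t ht => (hα M t ht).continuousWithinAt) (fun t ht => solution_right (hα M) ht)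
      (fun t _ => mem_univ _) (fun t ht => ((hα N t (hsub ht)).mono hsub).continuousWithinAt)
      (fun t ht => solution_right (fun s hs => (hα N s (hsub hs)).mono hsub) ht)
      (fun t _ => mem_univ _) (by rw [hα0, hα0])
  refine ⟨fun t => α ⌊t⌋₊ t, hα0 _, fun t ht => ?_⟩
  set N := ⌊t⌋₊ + 1 with hN
  have htN : t < (N : ℝ) := by
    rw [hN]; push_cast; exact Nat.lt_floor_add_one t
  have hxN : ∀ u : ℝ, 0 ≤ u → u < N → α ⌊u⌋₊ u = α N u := fun u hu huN =>
    hagree _ N (Nat.le_of_lt_succ (Nat.lt_succ_of_lt ((Nat.floor_lt hu).2 huN)))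
      ⟨hu, (Nat.lt_floor_add_one u).le⟩
  have hd := hα N t ⟨ht, by linarith⟩
  have heq : α ⌊t⌋₊ t = α N t := hxN t ht htN
  show HasDerivWithinAt (fun u => α ⌊u⌋₊ u) (g (α ⌊t⌋₊ t)) (Ici 0) t
  rw [heq]
  refine (hd.mono_of_mem_nhdsWithin ?_).congr_of_eventuallyEq ?_ heq
  · refine mem_nhdsWithin.2 ⟨Iio ((N : ℝ) + 1), isOpen_Iio, ?_, fun u hu => ⟨hu.2, hu.1.le⟩⟩
    show t < (N : ℝ) + 1
    linarith
  · filter_upwards [self_mem_nhdsWithin, mem_nhdsWithin_of_mem_nhds (Iio_mem_nhds htN)] with u h1 h2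
    exact hxN u h1 h2

/-- A maximum of finitely many functions stays below a barrier it cannot cross. -/
theorem max_le_barrier {ι : Type*} {s : Finset ι} (hs : s.Nonempty) {q : ι → ℝ → ℝ}
    {D : ι → ℝ → ℝ} {a b : ℝ} {B : ℝ → ℝ} {B' : ℝ}
    (hq : ∀ i ∈ s, ∀ t ∈ Icc a b, HasDerivWithinAt (q i) (D i t) (Ici t) t)
    (hqc : ∀ i ∈ s, ContinuousOn (q i) (Icc a b))
    (ha : ∀ i ∈ s, q i a ≤ B a) (hB : ∀ t, HasDerivAt B B' t)
    (hbound : ∀ t ∈ Ico a b, ∀ i ∈ s, q i t = B t → (∀ j ∈ s, q j t ≤ q i t) → D i t < B') :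
    ∀ t ∈ Icc a b, ∀ i ∈ s, q i t ≤ B t := by
  classical
  let Φ : ℝ → ℝ := fun t => s.sup' hs fun i => q i t
  have hact : ∀ t, (s.filter fun i => q i t = Φ t).Nonempty := fun t => by
    obtain ⟨i, hi, he⟩ := s.exists_mem_eq_sup' hs fun i => q i t
    exact ⟨i, Finset.mem_filter.2 ⟨hi, he.symm⟩⟩
  have hle : ∀ t, ∀ i ∈ s, q i t ≤ Φ t := fun t i hi => Finset.le_sup' (fun i => q i t) hi
  have hΦc : ContinuousOn Φ (Icc a b) := ContinuousOn.finset_sup'_apply hs hqc
  have key := image_le_of_liminf_slope_right_lt_deriv_boundary' (f := Φ)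
    (f' := fun t => (s.filter fun i => q i t = Φ t).sup' (hact t) fun i => D i t) (B := B)
    (B' := fun _ => B') hΦc ?_ (Finset.sup'_le hs _ ha)
    (fun t _ => (hB t).continuousAt.continuousWithinAt) (fun t _ => (hB t).hasDerivWithinAt) ?_
  · exact fun t ht i hi => (hle t i hi).trans (key ht)
  · intro t ht r hr
    refine Eventually.frequently ?_
    have hev : ∀ i ∈ s, ∀ᶠ z in 𝓝[>] t, q i z - Φ t < r * (z - t) := by
      intro i hi
      by_cases hmax : q i t = Φ t
      · have hD : D i t < r := lt_of_le_of_lt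
          (Finset.le_sup' (fun i => D i t) (Finset.mem_filter.2 ⟨hi, hmax⟩)) hr
        have hs' := (hasDerivWithinAt_iff_tendsto_slope' self_notMem_Ioi).1
          (hq i hi t (Ico_subset_Icc_self ht)).Ioi_of_Ici
        filter_upwards [hs'.eventually_lt_const hD, self_mem_nhdsWithin] with z hz hzt
        have hpos : (0 : ℝ) < z - t := sub_pos.2 hzt
        rw [slope_def_field, div_lt_iff₀ hpos] at hz
        rw [← hmax]; linarith
      · have hlt : q i t - Φ t < 0 := by
          linarith [lt_of_le_of_ne (hle t i hi) hmax]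
        have hc : ContinuousWithinAt (fun z => q i z - Φ t - r * (z - t)) (Ici t) t :=
          (((hq i hi t (Ico_subset_Icc_self ht)).continuousWithinAt).sub
            continuousWithinAt_const).sub (by fun_prop)
        have := (hc.mono Ioi_subset_Ici_self).eventually_lt_const (show
          q i t - Φ t - r * (t - t) < 0 by simp only [sub_self, mul_zero, sub_zero]; exact hlt)
        filter_upwards [this] with z hz using by linarith
    filter_upwards [(s.eventually_all).2 hev, self_mem_nhdsWithin] with z hz hzt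
    rw [slope_def_field, div_lt_iff₀ (sub_pos.2 hzt : (0 : ℝ) < z - t)]
    obtain ⟨i, hi, he⟩ := s.exists_mem_eq_sup' hs fun i => q i z
    show Φ z - Φ t < _
    have : Φ z = q i z := he
    rw [this]
    exact hz i hi
  · intro t ht heq
    refine (Finset.sup'_lt_iff _).2 fun i hi => ?_
    obtain ⟨his, hqi⟩ := Finset.mem_filter.1 hi
    exact hbound t ht i his (hqi.trans heq) fun j hj => hqi.symm ▸ hle t j hj

end Vale.Agent.P072
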