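import Vale.Agent.P072.Body
import Vale.Agent.P072.Solutions
import Mathlib.LinearAlgebra.Dual.Lemmas
import Mathlib.Analysis.Normed.Module.FiniteDimension
import Mathlib.Topology.UniformSpace.HeineCantor

/-! # Permanence of weakly reversible mass-action systems -/

namespace Vale.Agent.P072

open Set Filter
open scoped Topology NNReal

variable {n : ℕ}

lemma contDiff_massAction (Rn : Finset (Reaction n)) (k : Reaction n → ℝ) :
    ContDiff ℝ 1 (massAction Rn k) := by
  refine contDiff_pi.2 fun i => ContDiff.sum fun r _ => ?_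
  refine (contDiff_const.mul ?_).mul contDiff_const
  exact contDiff_prod fun j _ => (contDiff_apply ℝ ℝ j).pow _

lemma massAction_mem (Rn : Finset (Reaction n)) (k : Reaction n → ℝ) (x : Fin n → ℝ) :
    massAction Rn k x ∈ stoichSubspace Rn := by
  have : massAction Rn k x = ∑ r ∈ Rn, (k r * monomial x r.1) • reactionVector r := by
    funext i
    simp [massAction, Finset.sum_apply]
  rw [this]
  exact Submodule.sum_mem _ fun r hr =>
    Submodule.smul_mem _ _ (Submodule.subset_span ⟨r, hr, rfl⟩)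

/-- A curve with velocity in a subspace stays in its coset. -/
lemma mem_coset {S : Submodule ℝ (Fin n → ℝ)} {x : ℝ → Fin n → ℝ} {v : ℝ → Fin n → ℝ}
    (hx : ∀ t, 0 ≤ t → HasDerivWithinAt x (v t) (Ici 0) t) (hv : ∀ t, 0 ≤ t → v t ∈ S)
    {T : ℝ} (hT : 0 ≤ T) : x T - x 0 ∈ S := by
  refine (Subspace.forall_mem_dualAnnihilator_apply_eq_zero_iff S _).1 fun φ hφ => ?_
  have hconst := constant_of_has_deriv_right_zero (f := fun t => φ (x t)) (a := 0) (b := T) ?_ ?_ T
    ⟨hT, le_rfl⟩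
  · simp [map_sub, hconst]
  · exact φ.toContinuousLinearMap.continuous.comp_continuousOn
      fun t ht => ((hx t ht.1).mono Icc_subset_Ici_self).continuousWithinAt
  · intro t ht
    have h := φ.toContinuousLinearMap.hasFDerivAt.comp_hasDerivWithinAt t
      ((hx t ht.1).mono (Ici_subset_Ici.2 ht.1))
    have h0 : φ.toContinuousLinearMap (v t) = 0 :=
      (Submodule.mem_dualAnnihilator φ).1 hφ _ (hv t ht.1)
    rw [h0] at h
    exact h

/-- The indices of all pieces of a family of constraints. -/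
noncomputable def allPieces {ι : Type*} [Fintype ι] (F : ι → Cons n) :
    Finset (Σ j : ι, Equiv.Perm (Fin (F j).m) × (Fin (F j).m → ℝ)) :=
  Finset.univ.sigma fun j => Finset.univ ×ˢ (F j).stair.cands

lemma mem_allPieces {ι : Type*} [Fintype ι] {F : ι → Cons n}
    {p : Σ j : ι, Equiv.Perm (Fin (F j).m) × (Fin (F j).m → ℝ)} :
    p ∈ allPieces F ↔ (F p.1).stair.Adm p.2.2 := by
  simp [allPieces, Stair.mem_cands]

lemma continuous_value (F : Cons n) (σ : Equiv.Perm (Fin F.m)) (v : Fin F.m → ℝ) :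
    Continuous fun z : ℝ × (Fin n → ℝ) => F.value z.1 z.2 σ v := by
  simp only [Cons.value, Cons.lin, Stair.cost]
  fun_prop

lemma continuous_formSpeed (Rn : Finset (Reaction n)) (k : Reaction n → ℝ) {m : ℕ}
    (f : Fin m → Fin n) (v : Fin m → ℝ) : Continuous fun x => formSpeed Rn k x f v := by
  have := (contDiff_massAction Rn k).continuous
  simp only [formSpeed]
  fun_prop

/-- The boxes `[e^{-LR}, e^{LR}]^n`. -/
def box (L R : ℝ) : Set (Fin n → ℝ) :=
  Icc (fun _ => Real.exp (-(L * R))) (fun _ => Real.exp (L * R))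

lemma isCompact_box (L R : ℝ) : IsCompact (box (n := n) L R) := isCompact_Icc

lemma box_mono {L R R' : ℝ} (hL : 0 ≤ L) (h : R ≤ R') : box (n := n) L R ⊆ box L R' := by
  have := mul_le_mul_of_nonneg_left h hL
  exact Icc_subset_Icc (fun _ => Real.exp_le_exp.2 (by linarith))
    (fun _ => Real.exp_le_exp.2 (by linarith))

/-- Clamping to a box. -/
noncomputable def clamp (L R : ℝ) (x : Fin n → ℝ) : Fin n → ℝ :=
  fun i => max (Real.exp (-(L * R))) (min (Real.exp (L * R)) (x i))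

lemma clamp_of_mem {L R : ℝ} {x : Fin n → ℝ} (h : x ∈ box L R) : clamp L R x = x := by
  funext i
  simp [clamp, h.1 i, h.2 i]

lemma clamp_mem {L R : ℝ} (h : 0 ≤ L * R) (x : Fin n → ℝ) : clamp L R x ∈ box L R :=
  ⟨fun _ => le_max_left _ _, fun _ => max_le (Real.exp_le_exp.2 (by linarith)) (min_le_left _ _)⟩

lemma lipschitz_clamp (L R : ℝ) : LipschitzWith 1 (clamp (n := n) L R) := by
  refine LipschitzWith.of_dist_le_mul fun x y => ?_
  rw [NNReal.coe_one, one_mul, dist_pi_le_iff dist_nonneg]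
  intro i
  refine le_trans ?_ (dist_le_pi_dist x y i)
  simp only [clamp, Real.dist_eq]
  refine (abs_max_sub_max_le_max _ _ _ _).trans ?_
  rw [sub_self, abs_zero, max_eq_right (abs_nonneg _)]
  refine (abs_min_sub_min_le_max _ _ _ _).trans ?_
  rw [sub_self, abs_zero, max_eq_right (abs_nonneg _)]

/-- Every weakly reversible mass-action system is permanent on every class. -/
theorem permanent (Rn : Finset (Reaction n)) (k : Reaction n → ℝ) (hW : WeaklyReversible Rn)
    (hk : ∀ r ∈ Rn, 0 < k r) (c : Fin n → ℝ) (hc : ∀ i, 0 < c i) : PermanentOn Rn k c := by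
  classical
  obtain ⟨F, L₀, hev, hex⟩ := exists_bodies hW hk hc
  obtain ⟨R₀', hR₀'⟩ := eventually_atTop.1 hev
  let L := max L₀ 1
  have hL : 0 ≤ L := le_trans zero_le_one (le_max_right _ _)
  let R₀ := max R₀' 1
  have hR₀ : 1 ≤ R₀ := le_max_right _ _
  have hgood : ∀ R, R₀ ≤ R → ∀ x : Fin n → ℝ, (∀ j, (F j).Below R (1 / 4) x) →
      (∀ i, 0 < x i) ∧ x ∈ box L R ∧ (x - c ∈ stoichSubspace Rn → ∀ j σ v, (F j).IsTop R x σ v →
        -(1 / 4) ≤ (F j).value R x σ v →
        formSpeed Rn k x (fun l => (F j).emb (σ l)) v < 0) := by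
    intro R hR x hx
    obtain ⟨h1, h2⟩ := hR₀' R (le_trans (le_max_left _ _) hR) x hx
    have hLR : L₀ * R ≤ L * R :=
      mul_le_mul_of_nonneg_right (le_max_left _ _) (by linarith)
    exact ⟨fun i => (h1 i).1, ⟨fun i => le_trans (Real.exp_le_exp.2 (by linarith)) (h1 i).2.1,
      fun i => (h1 i).2.2.trans (Real.exp_le_exp.2 hLR)⟩, h2⟩
  have hclosedS : IsClosed {x : Fin n → ℝ | x - c ∈ stoichSubspace Rn} :=
    (Submodule.closed_of_finiteDimensional (stoichSubspace Rn)).preimage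
      (continuous_id.sub continuous_const)
  have hclosedBelow : ∀ R b, IsClosed {x : Fin n → ℝ | ∀ j, (F j).Below R b x} := by
    intro R b
    simp only [Cons.Below, ofPred_forall]
    exact isClosed_iInter fun j => isClosed_iInter fun σ => isClosed_iInter fun v =>
      isClosed_iInter fun _ => isClosed_le
        ((continuous_value (F j) σ v).comp (Continuous.prodMk_right R)) continuous_const
  let K : Set (Fin n → ℝ) :=
    box L R₀ ∩ ({x | x - c ∈ stoichSubspace Rn} ∩ {x | ∀ j, (F j).Below R₀ 0 x})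
  refine ⟨K, (isCompact_box L R₀).inter_right (hclosedS.inter (hclosedBelow R₀ 0)),
    fun x hx => ⟨hx.2.1, fun i => lt_of_lt_of_le (Real.exp_pos _) (hx.1.1 i)⟩, fun x₀ hx₀ => ?_⟩
  -- a large body containing the initial point
  obtain ⟨R₁, hR₁a, hR₁b⟩ := ((hex x₀ hx₀.2).and (eventually_ge_atTop R₀)).exists
  -- the truncated equation
  obtain ⟨Kf, hKf⟩ := (contDiff_massAction Rn k).contDiffOn.exists_lipschitzOnWith one_ne_zero
    (convex_Icc (fun _ : Fin n => Real.exp (-(L * R₁))) (fun _ => Real.exp (L * R₁))) isCompact_Icc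
  obtain ⟨Mf, hMf⟩ := (isCompact_box (n := n) L R₁).exists_bound_of_continuousOn
    (contDiff_massAction Rn k).continuous.continuousOn
  have hLR₁ : 0 ≤ L * R₁ := mul_nonneg hL (by linarith)
  let g : (Fin n → ℝ) → Fin n → ℝ := fun x => massAction Rn k (clamp L R₁ x)
  have hgK : LipschitzWith Kf g := by
    refine LipschitzWith.of_dist_le_mul fun x y => ?_
    refine (hKf.dist_le_mul _ (clamp_mem hLR₁ x) _ (clamp_mem hLR₁ y)).trans ?_
    refine mul_le_mul_of_nonneg_left ?_ Kf.coe_nonneg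
    simpa using (lipschitz_clamp L R₁).dist_le_mul x y
  have hgM : ∀ x, ‖g x‖ ≤ (⟨max Mf 0, le_max_right _ _⟩ : ℝ≥0) := fun x =>
    (hMf _ (clamp_mem hLR₁ x)).trans (le_max_left _ _)
  obtain ⟨x, hx0, hxd⟩ := exists_global_solution hgK hgM x₀
  have hxc : ContinuousOn x (Ici 0) := fun t ht => (hxd t ht).continuousWithinAt
  have hclass : ∀ t, 0 ≤ t → x t - c ∈ stoichSubspace Rn := by
    intro t ht
    have h1 := mem_coset hxd (fun s _ => massAction_mem Rn k _) ht
    have := Submodule.add_mem _ h1 hx₀.1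
    rwa [hx0, sub_add_sub_cancel] at this
  -- uniform descent
  let Z : (Σ j, Equiv.Perm (Fin (F j).m) × (Fin (F j).m → ℝ)) → Set (ℝ × (Fin n → ℝ)) := fun p =>
    (Icc R₀ R₁ ×ˢ box L R₁) ∩ ({z | z.2 - c ∈ stoichSubspace Rn} ∩
      ({z | ∀ j σ v, (F j).stair.Adm v → (F j).value z.1 z.2 σ v ≤ 1 / 4} ∩
      ({z | -(1 / 4) ≤ (F p.1).value z.1 z.2 p.2.1 p.2.2} ∩
        {z | ∀ σ v, (F p.1).stair.Adm v →
          (F p.1).value z.1 z.2 σ v ≤ (F p.1).value z.1 z.2 p.2.1 p.2.2})))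
  let D : (Σ j, Equiv.Perm (Fin (F j).m) × (Fin (F j).m → ℝ)) → ℝ × (Fin n → ℝ) → ℝ := fun p z =>
    formSpeed Rn k z.2 (fun l => (F p.1).emb (p.2.1 l)) p.2.2 * Real.exp (-(z.1 * (F p.1).a))
  have hdesc : ∃ γ : ℝ, 0 < γ ∧ ∀ p ∈ allPieces F, ∀ z ∈ Z p, D p z ≤ -γ := by
    have hone : ∀ p ∈ allPieces F, ∃ γ : ℝ, 0 < γ ∧ ∀ z ∈ Z p, D p z ≤ -γ := by
      intro p hp
      have hZ : IsCompact (Z p) := by
        refine (isCompact_Icc.prod (isCompact_box L R₁)).inter_right
          ((hclosedS.preimage continuous_snd).inter (IsClosed.inter ?_ (IsClosed.inter ?_ ?_)))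
        · simp only [ofPred_forall]
          exact isClosed_iInter fun j => isClosed_iInter fun σ => isClosed_iInter fun v =>
            isClosed_iInter fun _ => isClosed_le (continuous_value (F j) σ v) continuous_const
        · exact isClosed_le continuous_const (continuous_value (F p.1) p.2.1 p.2.2)
        · simp only [ofPred_forall]
          exact isClosed_iInter fun σ => isClosed_iInter fun v => isClosed_iInter fun _ =>
            isClosed_le (continuous_value (F p.1) σ v) (continuous_value (F p.1) p.2.1 p.2.2)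
      rcases (Z p).eq_empty_or_nonempty with he | hne
      · exact ⟨1, one_pos, fun z hz => by simp [he] at hz⟩
      have hD : Continuous (D p) :=
        ((continuous_formSpeed Rn k _ _).comp continuous_snd).mul (by fun_prop)
      obtain ⟨z₀, hz₀, hmax⟩ := hZ.exists_isMaxOn hne hD.continuousOn
      refine ⟨-(D p z₀), ?_, fun z hz => by rw [neg_neg]; exact hmax hz⟩
      obtain ⟨⟨hR, -⟩, hcl, hb, hv, htop⟩ := hz₀
      have := (hgood z₀.1 hR.1 z₀.2 hb).2.2 hcl p.1 p.2.1 p.2.2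
        ⟨mem_allPieces.1 hp, htop⟩ hv
      exact neg_pos.2 (mul_neg_of_neg_of_pos this (Real.exp_pos _))
    choose! γ hγ0 hγ using hone
    have hne' : (insert (1 : ℝ) ((allPieces F).image γ)).Nonempty := Finset.insert_nonempty _ _
    refine ⟨Finset.min' _ hne', (Finset.lt_min'_iff _ _).2 fun a ha => ?_, fun p hp z hz => ?_⟩
    · rcases Finset.mem_insert.1 ha with rfl | ha
      · exact one_pos
      · obtain ⟨p, hp, rfl⟩ := Finset.mem_image.1 ha
        exact hγ0 p hp
    · exact (hγ p hp z hz).trans (neg_le_neg (Finset.min'_le _ _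
        (Finset.mem_insert_of_mem (Finset.mem_image_of_mem γ hp))))
  obtain ⟨γ, hγ, hdesc⟩ := hdesc
  have hne : (allPieces F).Nonempty :=
    ⟨⟨none, 1, fun _ => (F none).stair.lo⟩, mem_allPieces.2 Stair.adm_lo⟩
  -- comparison with a linear barrier
  have hbar : ∀ R, R₀ ≤ R → R ≤ R₁ → ∀ (t₀ t₁ b : ℝ) (s : ℝ), 0 ≤ t₀ → -γ < s →
      (∀ t ∈ Ico t₀ t₁, b + s * (t - t₀) ∈ Icc (-(1 / 4)) (1 / 4 : ℝ)) →
      (∀ j, (F j).Below R b (x t₀)) →
      ∀ t ∈ Icc t₀ t₁, ∀ j, (F j).Below R (b + s * (t - t₀)) (x t) := by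
    intro R hR hR' t₀ t₁ b s ht₀ hs hrange hinit
    have h := max_le_barrier hne (q := fun p t => (F p.1).value R (x t) p.2.1 p.2.2)
      (D := fun p t => (∑ l, g (x t) ((F p.1).emb (p.2.1 l)) * p.2.2 l) *
        Real.exp (-(R * (F p.1).a)))
      (a := t₀) (b := t₁) (B := fun t => b + s * (t - t₀)) (B' := s) ?_ ?_ ?_ ?_ ?_
    · exact fun t ht j σ v hv => h t ht ⟨j, σ, v⟩ (mem_allPieces.2 hv)
    · intro p _ t ht
      have hd := hasDerivWithinAt_pi.1
        ((hxd t (le_trans ht₀ ht.1)).mono (Ici_subset_Ici.2 (le_trans ht₀ ht.1)))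
      have hsum : HasDerivWithinAt (fun t => ∑ l, x t ((F p.1).emb (p.2.1 l)) * p.2.2 l)
          (∑ l, g (x t) ((F p.1).emb (p.2.1 l)) * p.2.2 l) (Ici t) t :=
        HasDerivWithinAt.fun_sum fun l _ => (hd _).mul_const _
      exact ((hsum.sub_const _).mul_const _).add_const _
    · intro p _
      exact ((continuous_value (F p.1) p.2.1 p.2.2).comp
        (Continuous.prodMk_right R)).comp_continuousOn
        (hxc.mono fun t ht => le_trans ht₀ ht.1)
    · intro p hp
      simpa using hinit p.1 p.2.1 p.2.2 (mem_allPieces.1 hp)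
    · intro t
      simpa using (((hasDerivAt_id t).sub_const t₀).const_mul s).const_add b
    · intro t ht p hp heq hle
      have hr := hrange t ht
      have hbelow : ∀ j, (F j).Below R (1 / 4) (x t) := fun j σ v hv =>
        ((hle ⟨j, σ, v⟩ (mem_allPieces.2 hv)).trans heq.le).trans hr.2
      have hbox : x t ∈ box L R₁ := box_mono hL hR' (hgood R hR _ hbelow).2.1
      have hz : (R, x t) ∈ Z p :=
        ⟨⟨⟨hR, hR'⟩, hbox⟩, hclass t (le_trans ht₀ ht.1), hbelow, hr.1.trans heq.ge,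
          fun σ v hv => hle ⟨p.1, σ, v⟩ (mem_allPieces.2 hv)⟩
      refine lt_of_le_of_lt ?_ hs
      refine le_trans (le_of_eq ?_) (hdesc p hp _ hz)
      simp only [D, g, clamp_of_mem hbox, formSpeed]
      congr 1
      exact Finset.sum_congr rfl fun l _ => mul_comm _ _
  have hstay : ∀ R, R₀ ≤ R → R ≤ R₁ → ∀ t₀ b, 0 ≤ t₀ → 0 ≤ b → b ≤ 1 / 4 →
      (∀ j, (F j).Below R b (x t₀)) → ∀ t, t₀ ≤ t → ∀ j, (F j).Below R b (x t) := by
    intro R hR hR' t₀ b ht₀ hb hb' hinit t ht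
    have h := hbar R hR hR' t₀ t b 0 ht₀ (by linarith)
      (fun u _ => ⟨by linarith, by linarith⟩) hinit t ⟨ht, le_rfl⟩
    simpa using h
  have hdecay : ∀ R, R₀ ≤ R → R ≤ R₁ → ∀ t₀, 0 ≤ t₀ →
      (∀ j, (F j).Below R (1 / 4) (x t₀)) →
      ∀ t, t₀ + 1 / (2 * γ) ≤ t → ∀ j, (F j).Below R 0 (x t) := by
    intro R hR hR' t₀ ht₀ hinit
    have hpos : 0 < 1 / (2 * γ) := by positivity
    have h := hbar R hR hR' t₀ (t₀ + 1 / (2 * γ)) (1 / 4) (-(γ / 2)) ht₀ (by linarith) ?_ hinit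
      (t₀ + 1 / (2 * γ)) ⟨by linarith, le_rfl⟩
    · have e : 1 / 4 + -(γ / 2) * (t₀ + 1 / (2 * γ) - t₀) = 0 := by field_simp; ring
      rw [e] at h
      exact hstay R hR hR' _ 0 (by linarith) le_rfl (by norm_num) h
    · intro u hu
      have h1 : γ / 2 * (u - t₀) ≤ γ / 2 * (1 / (2 * γ)) :=
        mul_le_mul_of_nonneg_left (by linarith [hu.2]) (by positivity)
      have e : γ / 2 * (1 / (2 * γ)) = 1 / 4 := by field_simp; ring
      have h2 : 0 ≤ γ / 2 * (u - t₀) := mul_nonneg (by positivity) (by linarith [hu.1])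
      constructor <;> linarith
  have h1 : ∀ t, 0 ≤ t → ∀ j, (F j).Below R₁ 0 (x t) :=
    hstay R₁ hR₁b le_rfl 0 0 le_rfl le_rfl (by norm_num) (by rw [hx0]; exact hR₁a)
  have hin : ∀ t, 0 ≤ t → (∀ i, 0 < x t i) ∧ x t ∈ box L R₁ := fun t ht => by
    obtain ⟨a, b, -⟩ := hgood R₁ hR₁b (x t) fun j σ v hv => (h1 t ht j σ v hv).trans (by norm_num)
    exact ⟨a, b⟩
  have hsol : IsSolutionOn Rn k x (Ici 0) := by
    intro t ht
    have := hxd t ht
    rwa [show g (x t) = massAction Rn k (x t) by simp only [g, clamp_of_mem (hin t ht).2]] at this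
  refine ⟨x, hx0, hsol, fun t ht => ⟨hclass t ht, (hin t ht).1⟩, fun T y hy hy0 t ht => ?_, ?_⟩
  · exact (solution_unique (contDiff_massAction Rn k)
      (fun s hs => (hsol s hs.1).mono Icc_subset_Ici_self) hy (hx0.trans hy0.symm) ht).symm
  -- shrink the body step by step
  have hcomp : IsCompact (Icc R₀ R₁ ×ˢ box (n := n) L R₁) :=
    isCompact_Icc.prod (isCompact_box L R₁)
  have hΦ : ContinuousOn (fun z : ℝ × (Fin n → ℝ) =>
      (allPieces F).sup' hne fun p => (F p.1).value z.1 z.2 p.2.1 p.2.2) (Icc R₀ R₁ ×ˢ box L R₁) :=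
    ContinuousOn.finset_sup'_apply hne fun p _ =>
      (continuous_value (F p.1) p.2.1 p.2.2).continuousOn
  obtain ⟨δ, hδ, hδ'⟩ := Metric.uniformContinuousOn_iff.1
    (hcomp.uniformContinuousOn_of_continuous hΦ) (1 / 4) (by norm_num)
  have hsteps : ∀ i : ℕ, ∃ T, 0 ≤ T ∧ ∀ t, T ≤ t →
      ∀ j, (F j).Below (max R₀ (R₁ - i * (δ / 2))) 0 (x t) := by
    intro i
    induction i with
    | zero => exact ⟨0, le_rfl, fun t ht => by simpa [max_eq_right hR₁b] using h1 t ht⟩
    | succ i ih =>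
      obtain ⟨T, hT0, hT⟩ := ih
      set R := max R₀ (R₁ - i * (δ / 2)) with hRdef
      set R' := max R₀ (R₁ - (i + 1 : ℕ) * (δ / 2)) with hR'def
      have hi : (0 : ℝ) ≤ i := Nat.cast_nonneg i
      have hR : R₀ ≤ R ∧ R ≤ R₁ := ⟨le_max_left _ _, max_le hR₁b (by nlinarith)⟩
      have hR' : R₀ ≤ R' ∧ R' ≤ R₁ :=
        ⟨le_max_left _ _, max_le hR₁b (by push_cast; nlinarith)⟩
      have hdist : dist R' R < δ := by
        rw [Real.dist_eq]
        refine lt_of_le_of_lt (abs_max_sub_max_le_max _ _ _ _) ?_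
        rw [sub_self, abs_zero, max_eq_right (abs_nonneg _)]
        push_cast
        rw [show R₁ - ((i : ℝ) + 1) * (δ / 2) - (R₁ - i * (δ / 2)) = -(δ / 2) by ring,
          abs_neg, abs_of_pos (by linarith)]
        linarith
      refine ⟨T + 1 / (2 * γ), by positivity, hdecay R' hR'.1 hR'.2 T hT0 fun j σ v hv => ?_⟩
      have hd := hδ' (R', x T) ⟨hR', (hin T hT0).2⟩ (R, x T) ⟨hR, (hin T hT0).2⟩
        (by simpa [Prod.dist_eq] using hdist)
      rw [Real.dist_eq] at hd
      have hub : (allPieces F).sup' hne (fun p => (F p.1).value R (x T) p.2.1 p.2.2) ≤ 0 :=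
        Finset.sup'_le hne _ fun p hp => hT T le_rfl p.1 p.2.1 p.2.2 (mem_allPieces.1 hp)
      have := Finset.le_sup' (fun p : (Σ j, Equiv.Perm (Fin (F j).m) × (Fin (F j).m → ℝ)) =>
        (F p.1).value R' (x T) p.2.1 p.2.2) (mem_allPieces.2 hv : (⟨j, σ, v⟩ : Σ j, _) ∈ _)
      linarith [(abs_lt.1 hd).2]
  obtain ⟨i, hi⟩ := exists_nat_ge ((R₁ - R₀) / (δ / 2))
  rw [div_le_iff₀ (by linarith : (0 : ℝ) < δ / 2)] at hi
  obtain ⟨T, hT0, hT⟩ := hsteps i
  refine ⟨T, fun t ht => ?_⟩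
  have hb := hT t ht
  rw [max_eq_left (by linarith : R₁ - i * (δ / 2) ≤ R₀)] at hb
  exact ⟨(hgood R₀ le_rfl (x t) fun j σ v hv => (hb j σ v hv).trans (by norm_num)).2.1,
    hclass t (le_trans hT0 ht), hb⟩

end Vale.Agent.P072
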