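import Vale.Agent.P072.Best
import Mathlib.Order.Filter.AtTopBot.Archimedean
import Mathlib.Analysis.SpecialFunctions.Exp

/-! # Values of staircases, and the choice of their constants -/

namespace Vale.Agent.P072

open Finset Filter

lemma eventually_exp_gt (A μ : ℝ) (hμ : 0 < μ) :
    ∀ᶠ R : ℝ in atTop, A < Real.exp (R * μ) :=
  (Real.tendsto_exp_atTop.comp (tendsto_id.atTop_mul_const hμ)).eventually_gt_atTop A

namespace Stair

variable {m : ℕ} {S : Stair m}

lemma closure_congr {S S' : Stair m} (h : S.base = S'.base) :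
    ∀ j, S.closure j = S'.closure j := by
  intro j
  induction j with
  | zero => simp only [closure, h]
  | succ j ih => simp only [closure, ih]

/-- Constants exist for every base family, independently of the grid. -/
lemma exists_constants (base : Finset (Fin m → ℝ)) :
    ∃ κ C Λ : ℝ, ∀ (ρ : ℝ) (N N' : ℕ), 0 < ρ → (⟨base, ρ, Λ, N, N'⟩ : Stair m).Good κ C := by
  classical
  let S₀ : Stair m := ⟨base, 1, 1, 0, 0⟩
  let K : Finset (Fin m → ℝ) := S₀.closure m
  let C : ℝ := 1 + ∑ e ∈ K, ∑ l, |e l|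
  have hnn : 0 ≤ ∑ e ∈ K, ∑ l, |e l| :=
    Finset.sum_nonneg fun e _ => Finset.sum_nonneg fun l _ => abs_nonneg _
  let E : Finset ℝ := insert C⁻¹ (((K ×ˢ (univ : Finset (Fin m))).filter
    fun p => p.1 p.2 ≠ 0).image fun p => |p.1 p.2|)
  have hne : E.Nonempty := Finset.insert_nonempty _ _
  let κ := E.min' hne
  have hκC : κ ≤ C⁻¹ := Finset.min'_le _ _ (Finset.mem_insert_self _ _)
  have hC : 0 < C := by simp only [C]; linarith
  have hκ : 0 < κ := by
    refine (Finset.lt_min'_iff _ _).2 fun a ha => ?_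
    rcases Finset.mem_insert.1 ha with rfl | ha
    · positivity
    · obtain ⟨p, hp, rfl⟩ := Finset.mem_image.1 ha
      exact abs_pos.2 (Finset.mem_filter.1 hp).2
  refine ⟨κ, C, 20 * (C + 1) ^ 2 / κ ^ (m + 2), fun ρ N N' hρ => ?_⟩
  have hcl : ∀ Λ, (⟨base, ρ, Λ, N, N'⟩ : Stair m).closure m = K := fun Λ =>
    closure_congr (S := ⟨base, ρ, Λ, N, N'⟩) (S' := S₀) rfl m
  refine ⟨hρ, hκ, by simp only [C]; linarith, ?_, fun e he l hl => ?_, fun e he => ?_, ?_⟩
  · rwa [inv_eq_one_div, le_div_iff₀ hC] at hκC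
  · rw [hcl] at he
    refine Finset.min'_le _ _ (Finset.mem_insert_of_mem ?_)
    exact Finset.mem_image.2 ⟨(e, l), by simp [he, hl], rfl⟩
  · rw [hcl] at he
    have := Finset.single_le_sum (f := fun e : Fin m → ℝ => ∑ l, |e l|)
      (fun e _ => Finset.sum_nonneg fun l _ => abs_nonneg _) he
    simp only [C]
    linarith
  · rw [mul_div_cancel₀ _ (pow_pos hκ _).ne']

/-- The piece all of whose values are at the left end. -/
lemma piece_lo (R : ℝ) (ξ : Fin m → ℝ) :
    S.piece R ξ 1 (fun _ => S.lo) = S.lo * ∑ i, Real.exp (R * ξ i) := by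
  simp only [piece, Equiv.Perm.coe_one, id, Finset.mul_sum]
  refine Finset.sum_congr rfl fun i _ => ?_
  rw [cost_lo R (v := fun _ : Fin m => S.lo) rfl, sub_zero, mul_comm]

lemma piece_le (hρ : 0 ≤ S.ρ) (R : ℝ) (ξ : Fin m → ℝ) (σ : Equiv.Perm (Fin m))
    {v : Fin m → ℝ} (hv : S.Adm v) : S.piece R ξ σ v ≤ S.hi * ∑ i, Real.exp (R * ξ i) := by
  rw [Finset.mul_sum, ← Equiv.sum_comp σ (fun i => S.hi * Real.exp (R * ξ i))]
  refine Finset.sum_le_sum fun k _ => ?_
  have := cost_nonneg (S := S) R v k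
  have := mul_le_mul_of_nonneg_left (nodes_range hρ (hv.2 k)).2 (Real.exp_pos (R * ξ (σ k))).le
  linarith

/-- A constant positive piece, for coordinates that are large. -/
lemma exists_large_piece {κ C : ℝ} (H : S.Good κ C) (hlow : S.lo ≤ 0)
    (hhi : 2 * S.maxBand ≤ S.hi) :
    ∃ B : ℝ, ∀ (R : ℝ) (ξ : Fin m → ℝ), 0 < R → ∀ i, ∃ v, S.Adm v ∧
      S.ρ * Real.exp (R * ξ i) - B * Real.exp (R * (2 * S.maxBand)) ≤ S.piece R ξ 1 v := by
  classical
  refine ⟨(m : ℝ) * (S.nodeBound * (S.hi - S.lo)), fun R ξ hR i => ?_⟩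
  have hρ := H.rho_pos
  let k₀ : Fin m := ⟨0, lt_of_le_of_lt (Nat.zero_le _) i.2⟩
  have hT0 := H.rho_le_band (fun _ => S.lo) k₀
  have hT1 := H.band_le_max (fun _ => S.lo) k₀
  set T := S.band (fun _ => S.lo) k₀ with hT
  obtain ⟨g, hg, hg1, hg2⟩ := exists_grid (S := S) (hρ := hρ) (x := T)
    (by linarith) (by linarith)
  let v : Fin m → ℝ := fun _ => g
  have hagree : ∀ l, l < k₀ → (fun _ : Fin m => S.lo) l = v l := fun l hl => absurd hl (by
    simp [k₀, Fin.lt_def])
  have hk₀ : v k₀ ∈ S.nodes v k₀ := by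
    refine mem_nodes.2 (Or.inr ⟨Or.inr ⟨hg, fun c hc => ?_⟩, by simp only [v]; linarith,
      by simp only [v]; linarith⟩)
    obtain ⟨e, -, -, rfl⟩ := mem_breaks.1 hc
    have hb : bp e v k₀ = 0 := by simp [bp, k₀, Fin.lt_def]
    rw [hb, sub_zero, ← band_congr (S := S) hagree]
    simp only [v]
    rw [abs_of_pos (by linarith)]
    exact hg1.le
  have hv : S.Adm v := ⟨antitone_const, fun j => by
    rcases (show k₀ ≤ j from Nat.zero_le j.val).eq_or_lt with h | h
    · exact h ▸ hk₀
    · exact pair_node hρ.le h hk₀⟩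
  refine ⟨v, hv, ?_⟩
  have hcost : ∀ j, S.cost R v j ≤ S.nodeBound * (S.hi - S.lo) *
      Real.exp (R * (2 * S.maxBand)) := fun j =>
    cost_le hρ.le hR.le fun w _ hwlo hwle => (thr_le hwlo).trans
      (hwle.trans (by simp only [v]; linarith))
  calc S.ρ * Real.exp (R * ξ i) - m * (S.nodeBound * (S.hi - S.lo)) *
        Real.exp (R * (2 * S.maxBand))
      ≤ g * Real.exp (R * ξ i) - ∑ _j : Fin m, S.nodeBound * (S.hi - S.lo) *
        Real.exp (R * (2 * S.maxBand)) := by
        rw [Finset.sum_const, Finset.card_univ, Fintype.card_fin, nsmul_eq_mul]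
        have := mul_le_mul_of_nonneg_right (show S.ρ ≤ g by linarith)
          (Real.exp_pos (R * ξ i)).le
        linarith
    _ ≤ ∑ j, Real.exp (R * ξ j) * g - ∑ j, S.cost R v j := by
        refine sub_le_sub ?_ (Finset.sum_le_sum fun j _ => hcost j)
        rw [mul_comm g]
        exact Finset.single_le_sum (f := fun j => Real.exp (R * ξ j) * g)
          (fun j _ => mul_nonneg (Real.exp_pos _).le (by linarith)) (Finset.mem_univ i)
    _ = S.piece R ξ 1 v := by
        simp only [piece, Finset.sum_sub_distrib, Equiv.Perm.coe_one, id, v]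

/-- With no positive nodes, every piece is negative, coordinate by coordinate. -/
lemma exists_negative {κ C : ℝ} (H : S.Good κ C) (hhi : S.hi = 0) (hlo : S.lo < 0) :
    ∃ γ : ℝ, 0 < γ ∧ ∀ (R : ℝ) (ξ : Fin m → ℝ) (σ : Equiv.Perm (Fin m)) (v : Fin m → ℝ),
      0 < R → S.Adm v → ∀ k,
        S.piece R ξ σ v ≤ -(γ * Real.exp (R * min (ξ (σ k)) (-(2 * S.maxBand)))) := by
  classical
  obtain ⟨γ₁, hγ₁, hgap⟩ := exists_gap (S := S)
  have hρ := H.rho_pos
  let G : Finset ℝ := insert γ₁ ((S.cands.biUnion fun v => (univ : Finset (Fin m)).image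
    fun k => -(v k)).filter fun a => 0 < a)
  have hne : G.Nonempty := Finset.insert_nonempty _ _
  refine ⟨G.min' hne, (Finset.lt_min'_iff _ _).2 fun a ha => ?_, fun R ξ σ v hR hv k => ?_⟩
  · rcases Finset.mem_insert.1 ha with rfl | ha
    · exact hγ₁
    · exact (Finset.mem_filter.1 ha).2
  · have hnp : ∀ j, v j ≤ 0 := fun j => hhi ▸ (nodes_range hρ.le (hv.2 j)).2
    have hterm : S.piece R ξ σ v ≤ Real.exp (R * ξ (σ k)) * v k - S.cost R v k := by
      rw [piece, ← Finset.add_sum_erase _ _ (Finset.mem_univ k)]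
      refine add_le_of_nonpos_right (Finset.sum_nonpos fun j _ => ?_)
      have := cost_nonneg (S := S) R v j
      have := mul_nonpos_of_nonneg_of_nonpos (Real.exp_pos (R * ξ (σ j))).le (hnp j)
      linarith
    refine hterm.trans ?_
    set E := Real.exp (R * min (ξ (σ k)) (-(2 * S.maxBand))) with hE
    rcases (hnp k).eq_or_lt with hk | hk
    · have hprop : S.Proper v k.val := fun l hl => ⟨hv.2 l, by
        have := hv.1 (show l ≤ k from le_of_lt hl)
        linarith [hnp l]⟩
      have hlo' : S.lo < v k := hk ▸ hlo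
      have hc := le_cost R (hv.2 k) hlo'
      have hg : G.min' hne ≤ v k - S.before v k (v k) :=
        (Finset.min'_le _ _ (Finset.mem_insert_self _ _)).trans (hgap v hv k _ (hv.2 k) hlo')
      have hthr : -(2 * S.maxBand) ≤ S.thr v k (v k) := by
        have := H.rho_le_max
        simp only [thr]
        split_ifs with hb
        · linarith [thr_break_ge H hprop (hv.2 k) hb, H.band_le_max v k]
        · linarith
      have hexp : E ≤ Real.exp (R * S.thr v k (v k)) :=
        Real.exp_le_exp.2 (mul_le_mul_of_nonneg_left ((min_le_right _ _).trans hthr) hR.le)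
      have hbl := before_lt (S := S) (v := v) (k := k) hlo'
      have := mul_le_mul hg hexp (Real.exp_pos _).le (by linarith)
      rw [hk, mul_zero]
      rw [hk] at hc this
      linarith
    · have hg : G.min' hne ≤ -(v k) := Finset.min'_le _ _ (Finset.mem_insert_of_mem
        (Finset.mem_filter.2 ⟨Finset.mem_biUnion.2 ⟨v, mem_cands.2 hv,
          Finset.mem_image.2 ⟨k, Finset.mem_univ _, rfl⟩⟩, by linarith⟩))
      have hexp : E ≤ Real.exp (R * ξ (σ k)) :=
        Real.exp_le_exp.2 (mul_le_mul_of_nonneg_left (min_le_left _ _) hR.le)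
      have := mul_le_mul hg hexp (Real.exp_pos _).le (by linarith)
      have := cost_nonneg (S := S) R v k
      linarith

end Stair

end Vale.Agent.P072
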