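import Mathlib.Analysis.SpecialFunctions.Exp
import Mathlib.Analysis.InnerProductSpace.Basic
import Mathlib.Data.Fintype.BigOperators
import Mathlib.Logic.Relation
import Mathlib.LinearAlgebra.Span.Defs
import Mathlib.Analysis.Calculus.Deriv.Basic

/-! # Mass-action systems: definitions -/

namespace Vale.Agent.P072

open Finset

variable {d : ℕ}

/-- A complex is a vector of natural numbers; a reaction is an ordered pair of complexes. -/
abbrev Reaction (d : ℕ) : Type := (Fin d → ℕ) × (Fin d → ℕ)

/-- One reaction step between complexes. -/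
def Step (R : Finset (Reaction d)) (y y' : Fin d → ℕ) : Prop := (y, y') ∈ R

/-- Every reaction is a genuine one and can be undone by a directed path. -/
def WeaklyReversible (R : Finset (Reaction d)) : Prop :=
  (∀ r ∈ R, r.1 ≠ r.2) ∧ ∀ r ∈ R, Relation.ReflTransGen (Step R) r.2 r.1

/-- The reaction vector `y' - y`. -/
def reactionVector (r : Reaction d) : Fin d → ℝ := fun i => (r.2 i : ℝ) - (r.1 i : ℝ)

/-- The monomial `x ^ y`. -/
def monomial (x : Fin d → ℝ) (y : Fin d → ℕ) : ℝ := ∏ i, x i ^ y i

/-- The mass-action vector field. -/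
def massAction (R : Finset (Reaction d)) (k : Reaction d → ℝ) (x : Fin d → ℝ) : Fin d → ℝ :=
  fun i => ∑ r ∈ R, k r * monomial x r.1 * reactionVector r i

/-- The stoichiometric subspace. -/
def stoichSubspace (R : Finset (Reaction d)) : Submodule ℝ (Fin d → ℝ) :=
  Submodule.span ℝ (reactionVector '' (R : Set (Reaction d)))

/-- The positive stoichiometric class of `c`. -/
def posClass (R : Finset (Reaction d)) (c : Fin d → ℝ) : Set (Fin d → ℝ) :=
  {x | x - c ∈ stoichSubspace R ∧ ∀ i, 0 < x i}

/-- `x` solves the mass-action equation on the set of times `I`. -/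
def IsSolutionOn (R : Finset (Reaction d)) (k : Reaction d → ℝ) (x : ℝ → Fin d → ℝ)
    (I : Set ℝ) : Prop :=
  ∀ t ∈ I, HasDerivWithinAt x (massAction R k (x t)) I t

/-- Permanence on the class of `c`: there is a compact subset `K` of the class such that from
every point of the class starts a solution which exists and stays in the class for all positive
times, is the only solution on each interval `[0, T]`, and is eventually in `K`. -/
def PermanentOn (R : Finset (Reaction d)) (k : Reaction d → ℝ) (c : Fin d → ℝ) : Prop :=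
  ∃ K : Set (Fin d → ℝ), IsCompact K ∧ K ⊆ posClass R c ∧
    ∀ x₀ ∈ posClass R c, ∃ x : ℝ → Fin d → ℝ,
      x 0 = x₀ ∧ IsSolutionOn R k x (Set.Ici 0) ∧ (∀ t, 0 ≤ t → x t ∈ posClass R c) ∧
      (∀ (T : ℝ) (y : ℝ → Fin d → ℝ), IsSolutionOn R k y (Set.Icc 0 T) → y 0 = x₀ →
        ∀ t ∈ Set.Icc 0 T, y t = x t) ∧
      ∃ T₀ : ℝ, ∀ t, T₀ ≤ t → x t ∈ K

end Vale.Agent.P072
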