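import Vale.Agent.P072.Staircase
import Mathlib.Data.Fin.Tuple.Sort
import Mathlib.Data.Set.Finite.Lattice
import Mathlib.Order.Interval.Finset.Fin
import Mathlib.Data.Prod.Lex
import Mathlib.Tactic.Linarith

/-!
# The best piece of a staircase rounds the logarithm hierarchically
-/

namespace Vale.Agent.P072

open Finset

namespace Stair

variable {m : ℕ} {S : Stair m}

section congruence

variable {v v' : Fin m → ℝ} {k : Fin m}

lemma bp_congr (h : ∀ l, l < k → v l = v' l) (e : Fin m → ℝ) : bp e v k = bp e v' k := by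
  simp only [bp]
  congr 2
  refine Finset.sum_congr rfl fun l hl => ?_
  rw [h l (Finset.mem_filter.1 hl).2]

lemma breaks_congr (h : ∀ l, l < k → v l = v' l) : S.breaks v k = S.breaks v' k := by
  simp only [breaks]
  exact Finset.image_congr fun e _ => bp_congr h e

lemma code_congr {p : ℕ} (h : ∀ l : Fin m, l.val < p → v l = v' l) :
    S.code v p = S.code v' p := by
  simp only [code]
  refine Finset.sum_congr rfl fun l hl => ?_
  have hlp := (Finset.mem_filter.1 hl).2
  rw [h l hlp, breaks_congr (S := S) (v := v) (v' := v')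
    (fun j hj => h j (lt_trans hj hlp))]

lemma band_congr (h : ∀ l, l < k → v l = v' l) : S.band v k = S.band v' k := by
  simp only [band]
  rw [code_congr (S := S) (v := v) (v' := v') (p := k.val) fun l hl => h l hl]

lemma nodes_congr (h : ∀ l, l < k → v l = v' l) : S.nodes v k = S.nodes v' k := by
  simp only [nodes, breaks_congr (S := S) h, band_congr (S := S) h]

lemma before_congr (h : ∀ l, l < k → v l = v' l) (w : ℝ) :
    S.before v k w = S.before v' k w := by
  simp only [before, nodes_congr (S := S) h]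

lemma thr_congr (h : ∀ l, l < k → v l = v' l) (w : ℝ) : S.thr v k w = S.thr v' k w := by
  simp only [thr, breaks_congr (S := S) h, before_congr (S := S) h]

lemma cost_congr (R : ℝ) (h : ∀ l, l < k → v l = v' l) (hk : v k = v' k) :
    S.cost R v k = S.cost R v' k := by
  simp only [cost, nodes_congr (S := S) h, before_congr (S := S) h, thr_congr (S := S) h, hk]

end congruence

lemma closure_mono {i j : ℕ} (h : i ≤ j) : S.closure i ⊆ S.closure j := by
  induction h with
  | refl => exact subset_rfl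
  | step _ ih =>
    refine ih.trans ?_
    intro e he
    simp only [closure, Finset.mem_union]
    exact Or.inl he

lemma elim_mem {j : ℕ} {e e' : Fin m → ℝ} (he : e ∈ S.closure j) (he' : e' ∈ S.closure j)
    (k : Fin m) : e' k • e - e k • e' ∈ S.closure (j + 1) := by
  classical
  simp only [closure, Finset.mem_union, Finset.mem_image]
  exact Or.inr ⟨((e, e'), k), by simp [he, he'], rfl⟩

lemma pairVec_mem (a b : Fin m) (j : ℕ) : pairVec a b ∈ S.closure j := by
  classical
  refine closure_mono (Nat.zero_le j) ?_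
  simp only [closure, Finset.mem_union, Finset.mem_image]
  exact Or.inr ⟨(a, b), by simp, rfl⟩

lemma base_mem {e : Fin m → ℝ} (he : e ∈ S.base) (j : ℕ) : e ∈ S.closure j := by
  classical
  refine closure_mono (Nat.zero_le j) ?_
  simp only [closure, Finset.mem_union]
  exact Or.inl he

lemma mem_family {p : ℕ} {e : Fin m → ℝ} :
    e ∈ S.family p ↔ e ∈ S.closure (m - p) ∧ ∀ l : Fin m, p ≤ l.val → e l = 0 := by
  classical
  simp [family]

lemma mem_breaks {v : Fin m → ℝ} {k : Fin m} {c : ℝ} :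
    c ∈ S.breaks v k ↔ ∃ e ∈ S.family (k.val + 1), e k ≠ 0 ∧ bp e v k = c := by
  classical
  simp [breaks, and_assoc]

lemma mem_grid {g : ℝ} :
    g ∈ S.grid ↔ ∃ j : ℤ, -(S.lowN : ℤ) ≤ j ∧ j ≤ (S.highN : ℤ) ∧ (j : ℝ) * S.ρ = g := by
  classical
  simp [grid, and_assoc]

lemma mem_nodes {v : Fin m → ℝ} {k : Fin m} {w : ℝ} :
    w ∈ S.nodes v k ↔ w = S.lo ∨
      ((w ∈ S.breaks v k ∨ (w ∈ S.grid ∧ ∀ c ∈ S.breaks v k, S.band v k ≤ |w - c|)) ∧
        S.lo ≤ w ∧ w ≤ S.hi) := by
  classical
  simp [nodes]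

lemma lo_mem (v : Fin m → ℝ) (k : Fin m) : S.lo ∈ S.nodes v k := mem_nodes.2 (Or.inl rfl)

lemma lo_le_hi (hρ : 0 ≤ S.ρ) : S.lo ≤ S.hi := by
  simp only [lo, hi]
  have := mul_nonneg (Nat.cast_nonneg (α := ℝ) S.lowN) hρ
  have := mul_nonneg (Nat.cast_nonneg (α := ℝ) S.highN) hρ
  linarith

lemma nodes_range (hρ : 0 ≤ S.ρ) {v : Fin m → ℝ} {k : Fin m} {w : ℝ} (h : w ∈ S.nodes v k) :
    S.lo ≤ w ∧ w ≤ S.hi := by
  rcases mem_nodes.1 h with rfl | h
  · exact ⟨le_rfl, lo_le_hi hρ⟩
  · exact h.2

lemma before_lt {v : Fin m → ℝ} {k : Fin m} {w : ℝ} (h : S.lo < w) : S.before v k w < w := by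
  classical
  refine (Finset.max'_lt_iff _ _).2 fun u hu => ?_
  rcases Finset.mem_insert.1 hu with rfl | hu
  · exact h
  · exact (Finset.mem_filter.1 hu).2

lemma le_before {v : Fin m → ℝ} {k : Fin m} {w u : ℝ} (hu : u ∈ S.nodes v k) (huw : u < w) :
    u ≤ S.before v k w := by
  classical
  exact Finset.le_max' _ _ (Finset.mem_insert_of_mem (Finset.mem_filter.2 ⟨hu, huw⟩))

lemma lo_le_before {v : Fin m → ℝ} {k : Fin m} {w : ℝ} : S.lo ≤ S.before v k w := by
  classical
  exact Finset.le_max' _ _ (Finset.mem_insert_self _ _)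

lemma before_le {v : Fin m → ℝ} {k : Fin m} {w b : ℝ} (hb : S.lo ≤ b)
    (h : ∀ u ∈ S.nodes v k, u < w → u ≤ b) : S.before v k w ≤ b := by
  classical
  refine (Finset.max'_le_iff _ _).2 fun u hu => ?_
  rcases Finset.mem_insert.1 hu with rfl | hu
  · exact hb
  · exact h u (Finset.mem_filter.1 hu).1 (Finset.mem_filter.1 hu).2

lemma thr_le {v : Fin m → ℝ} {k : Fin m} {w : ℝ} (h : S.lo < w) : S.thr v k w ≤ w := by
  simp only [thr]
  split_ifs
  · exact (before_lt h).le
  · exact le_rfl

lemma before_le_thr {v : Fin m → ℝ} {k : Fin m} {w : ℝ} (h : S.lo < w) :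
    S.before v k w ≤ S.thr v k w := by
  simp only [thr]
  split_ifs
  · exact le_rfl
  · exact (before_lt h).le

lemma thr_mono {v : Fin m → ℝ} {k : Fin m} {u w : ℝ} (hu : u ∈ S.nodes v k) (hlo : S.lo < u)
    (huw : u ≤ w) : S.thr v k u ≤ S.thr v k w := by
  rcases huw.eq_or_lt with rfl | h
  · exact le_rfl
  · exact (thr_le hlo).trans ((le_before hu h).trans (before_le_thr (hlo.trans h)))

lemma cost_nonneg (R : ℝ) (v : Fin m → ℝ) (k : Fin m) : 0 ≤ S.cost R v k := by
  classical
  refine Finset.sum_nonneg fun w hw => mul_nonneg ?_ (Real.exp_pos _).le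
  linarith [before_lt (S := S) (v := v) (k := k) (Finset.mem_filter.1 hw).2.1]

lemma cost_lo (R : ℝ) {v : Fin m → ℝ} {k : Fin m} (h : v k = S.lo) : S.cost R v k = 0 := by
  classical
  refine Finset.sum_eq_zero fun w hw => ?_
  have := (Finset.mem_filter.1 hw).2
  linarith

lemma le_cost (R : ℝ) {v : Fin m → ℝ} {k : Fin m} (hk : v k ∈ S.nodes v k)
    (h : S.lo < v k) :
    (v k - S.before v k (v k)) * Real.exp (R * S.thr v k (v k)) ≤ S.cost R v k := by
  classical
  refine Finset.single_le_sum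
    (f := fun w => (w - S.before v k w) * Real.exp (R * S.thr v k w)) (fun w hw => ?_)
    (Finset.mem_filter.2 ⟨hk, h, le_rfl⟩)
  have := before_lt (S := S) (v := v) (k := k) (Finset.mem_filter.1 hw).2.1
  exact mul_nonneg (by linarith) (Real.exp_pos _).le

/-- A uniform bound on the number of nodes of one coordinate. -/
noncomputable def nodeBound (S : Stair m) : ℕ := (S.closure m).card + S.grid.card + 1

lemma card_nodes_le (v : Fin m → ℝ) (k : Fin m) : (S.nodes v k).card ≤ S.nodeBound := by
  classical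
  simp only [nodes, nodeBound]
  refine (Finset.card_insert_le _ _).trans (Nat.succ_le_succ ?_)
  refine (Finset.card_filter_le _ _).trans ((Finset.card_union_le _ _).trans
    (Nat.add_le_add ?_ (Finset.card_filter_le _ _)))
  refine Finset.card_image_le.trans ((Finset.card_filter_le _ _).trans ?_)
  exact Finset.card_le_card fun e he => closure_mono (Nat.sub_le _ _) (mem_family.1 he).1

lemma cost_le (hρ : 0 ≤ S.ρ) {R Θ : ℝ} (hR : 0 ≤ R) {v : Fin m → ℝ} {k : Fin m}
    (h : ∀ w ∈ S.nodes v k, S.lo < w → w ≤ v k → S.thr v k w ≤ Θ) :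
    S.cost R v k ≤ S.nodeBound * (S.hi - S.lo) * Real.exp (R * Θ) := by
  classical
  have hlh := lo_le_hi (S := S) hρ
  calc S.cost R v k
      ≤ ∑ _w ∈ (S.nodes v k).filter (fun w => S.lo < w ∧ w ≤ v k),
          (S.hi - S.lo) * Real.exp (R * Θ) := by
        refine Finset.sum_le_sum fun w hw => ?_
        obtain ⟨hwn, hwlo, hwle⟩ := Finset.mem_filter.1 hw
        refine mul_le_mul ?_ (Real.exp_le_exp.2 (mul_le_mul_of_nonneg_left (h w hwn hwlo hwle) hR))
          (Real.exp_pos _).le (by linarith)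
        linarith [(nodes_range hρ hwn).2, lo_le_before (S := S) (v := v) (k := k) (w := w)]
    _ ≤ S.nodeBound * ((S.hi - S.lo) * Real.exp (R * Θ)) := by
        rw [Finset.sum_const, nsmul_eq_mul]
        refine mul_le_mul_of_nonneg_right (Nat.cast_le.2 ?_)
          (mul_nonneg (by linarith) (Real.exp_pos _).le)
        exact (Finset.card_filter_le _ _).trans (card_nodes_le v k)
    _ = _ := by ring

section code

variable {v : Fin m → ℝ}

lemma code_succ (k : Fin m) :
    S.code v (k.val + 1) =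
      S.code v k.val + (if v k ∈ S.breaks v k then 2 ^ (m - 1 - k.val) else 0) := by
  classical
  have hs : univ.filter (fun l : Fin m => l.val < k.val + 1) =
      insert k (univ.filter fun l : Fin m => l.val < k.val) := by
    ext l
    simp [Fin.ext_iff]
    omega
  simp only [code, hs, Finset.sum_insert (by simp : k ∉ univ.filter fun l : Fin m => l.val < k.val)]
  ring

lemma code_mono {p q : ℕ} (h : p ≤ q) : S.code v p ≤ S.code v q := by
  classical
  refine Finset.sum_le_sum_of_subset (fun l hl => ?_)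
  simp only [Finset.mem_filter] at hl ⊢
  exact ⟨hl.1, by omega⟩

lemma code_add_le {p q : ℕ} (h : p ≤ q) (hq : q ≤ m) :
    S.code v q + 2 ^ (m - q) ≤ S.code v p + 2 ^ (m - p) := by
  induction h with
  | refl => exact le_rfl
  | @step q _ ih =>
    refine le_trans ?_ (ih (Nat.le_of_succ_le hq))
    have := code_succ (S := S) (v := v) ⟨q, hq⟩
    simp only at this
    rw [Nat.succ_eq_add_one, this]
    have e : m - q = (m - 1 - q) + 1 := by omega
    rw [e, show m - (q + 1) = m - 1 - q by omega, pow_succ]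
    split_ifs <;> omega

lemma code_zero : S.code v 0 = 0 := by simp [code]

lemma band_exp_le (k : Fin m) : S.code v k.val + 2 ^ (m - 1 - k.val) ≤ 2 ^ m := by
  have h := code_add_le (S := S) (v := v) (Nat.zero_le k.val) k.2.le
  rw [code_zero, Nat.zero_add, Nat.sub_zero] at h
  have : 2 ^ (m - 1 - k.val) ≤ 2 ^ (m - k.val) :=
    Nat.pow_le_pow_right (by norm_num) (by omega)
  omega

end code

namespace Good

variable {κ C : ℝ}

lemma kappa_le_one (H : S.Good κ C) : κ ≤ 1 := by
  nlinarith [H.kappa_mul, H.C_ge, H.kappa_pos]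

lemma twenty_le_lam (H : S.Good κ C) : 20 ≤ S.Λ := by
  have h1 : κ ^ (m + 2) ≤ 1 := pow_le_one₀ H.kappa_pos.le H.kappa_le_one
  have h2 : 0 < κ ^ (m + 2) := pow_pos H.kappa_pos _
  nlinarith [H.lam, H.C_ge, sq_nonneg C]

lemma lam_pow_le (H : S.Good κ C) {i j : ℕ} (h : i ≤ j) : S.Λ ^ i ≤ S.Λ ^ j :=
  pow_le_pow_right₀ (by linarith [H.twenty_le_lam]) h

lemma band_le_max (H : S.Good κ C) (v : Fin m → ℝ) (k : Fin m) : S.band v k ≤ S.maxBand :=
  mul_le_mul_of_nonneg_left (H.lam_pow_le (band_exp_le k)) H.rho_pos.le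

lemma rho_le_band (H : S.Good κ C) (v : Fin m → ℝ) (k : Fin m) : 20 * S.ρ ≤ S.band v k := by
  have h : S.Λ ^ 1 ≤ S.Λ ^ (S.code v k.val + 2 ^ (m - 1 - k.val)) :=
    H.lam_pow_le (le_trans Nat.one_le_two_pow (Nat.le_add_left _ _))
  have := H.twenty_le_lam
  rw [pow_one] at h
  simp only [band]
  nlinarith [H.rho_pos]

lemma band_pos (H : S.Good κ C) (v : Fin m → ℝ) (k : Fin m) : 0 < S.band v k := by
  linarith [H.rho_le_band v k, H.rho_pos]

lemma rho_le_max (H : S.Good κ C) : 20 * S.ρ ≤ S.maxBand := by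
  have h : S.Λ ^ 1 ≤ S.Λ ^ (2 ^ m) := H.lam_pow_le Nat.one_le_two_pow
  have := H.twenty_le_lam
  rw [pow_one] at h
  simp only [maxBand]
  nlinarith [H.rho_pos]

end Good

/-- The first `p` coordinates of `v` are proper nodes. -/
def Proper (S : Stair m) (v : Fin m → ℝ) (p : ℕ) : Prop :=
  ∀ l : Fin m, l.val < p → v l ∈ S.nodes v l ∧ S.lo < v l

lemma Proper.congr {v v' : Fin m → ℝ} {p : ℕ} (h : S.Proper v p)
    (hv : ∀ l : Fin m, l.val < p → v l = v' l) : S.Proper v' p := fun l hl => by
  rw [← hv l hl, ← nodes_congr (S := S) (v := v) (fun j hj => hv j (lt_trans hj hl))]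
  exact h l hl

lemma sum_eq_of_family {e v : Fin m → ℝ} {k : Fin m} (he : e ∈ S.family (k.val + 1))
    (hk : e k ≠ 0) : ∑ l, e l * v l = e k * (v k - bp e v k) := by
  classical
  have hz : ∀ l : Fin m, ¬ l < k → l ≠ k → e l = 0 := fun l h1 h2 =>
    (mem_family.1 he).2 l (by
      have : k < l := lt_of_le_of_ne (not_lt.1 h1) (Ne.symm h2)
      omega)
  rw [← Finset.sum_filter_add_sum_filter_not univ (fun l => l < k)]
  have : ∑ l ∈ univ.filter (fun l => ¬ l < k), e l * v l = e k * v k := by
    refine Finset.sum_eq_single k (fun l hl hlk => ?_) (fun h => absurd (by simp) h)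
    rw [hz l (Finset.mem_filter.1 hl).2 hlk, zero_mul]
  rw [this, bp]
  field_simp
  ring

lemma elim_family {k : Fin m} {e e' : Fin m → ℝ} (he : e ∈ S.family (k.val + 1))
    (he' : e' ∈ S.family (k.val + 1)) : e' k • e - e k • e' ∈ S.family k.val := by
  obtain ⟨h1, z1⟩ := mem_family.1 he
  obtain ⟨h2, z2⟩ := mem_family.1 he'
  refine mem_family.2 ⟨?_, fun l hl => ?_⟩
  · rw [show m - k.val = (m - (k.val + 1)) + 1 by omega]
    exact elim_mem h1 h2 k
  · rcases hl.eq_or_lt with h | h
    · have : l = k := Fin.ext h.symm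
      subst this
      simp [mul_comm]
    · simp [z1 l h, z2 l h]

lemma family_zero {e : Fin m → ℝ} (he : e ∈ S.family 0) : e = 0 :=
  funext fun l => (mem_family.1 he).2 l (Nat.zero_le _)

lemma Good.entry {κ C : ℝ} (H : S.Good κ C) {p : ℕ} {e : Fin m → ℝ} (he : e ∈ S.family p)
    (l : Fin m) : (e l ≠ 0 → κ ≤ |e l|) ∧ |e l| ≤ C := by
  have hc : e ∈ S.closure m := closure_mono (Nat.sub_le _ _) (mem_family.1 he).1
  refine ⟨H.entry_low e hc l, le_trans ?_ (H.entry_high e hc)⟩
  exact Finset.single_le_sum (f := fun i => |e i|) (fun i _ => abs_nonneg _) (Finset.mem_univ l)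

/-- Chosen values are either orthogonal to a vector or far from orthogonal. -/
lemma separation {κ C : ℝ} (H : S.Good κ C) {v : Fin m → ℝ} :
    ∀ p, p ≤ m → S.Proper v p → ∀ e ∈ S.family p, ∑ l, e l * v l ≠ 0 →
      κ ^ p * S.ρ * S.Λ ^ (S.code v p + 2 ^ (m - p)) ≤ |∑ l, e l * v l| := by
  intro p
  induction p with
  | zero =>
    intro _ _ e he hne
    rw [family_zero he] at hne
    simp at hne
  | succ p ih =>
    intro hp hprop e he hne
    have hk0 := H.kappa_pos
    have hk1 := H.kappa_le_one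
    have hρ := H.rho_pos
    have hΛ := H.twenty_le_lam
    let k : Fin m := ⟨p, hp⟩
    have hprop' : S.Proper v p := fun l hl => hprop l (Nat.lt_succ_of_lt hl)
    have hcode := code_succ (S := S) (v := v) k
    have e1 : m - (p + 1) = m - 1 - p := by omega
    have e2 : m - p = (m - 1 - p) + 1 := by omega
    have hpow : (2 : ℕ) ^ (m - p) = 2 * 2 ^ (m - 1 - p) := by rw [e2, pow_succ]; ring
    have hmono : S.Λ ^ (S.code v (p + 1) + 2 ^ (m - (p + 1))) ≤
        S.Λ ^ (S.code v p + 2 ^ (m - p)) := by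
      refine H.lam_pow_le ?_
      simp only [k] at hcode
      rw [hcode, e1, hpow]
      split_ifs <;> omega
    have hfac : κ ^ (p + 1) * S.ρ * S.Λ ^ (S.code v (p + 1) + 2 ^ (m - (p + 1))) ≤
        κ * (κ ^ p * S.ρ * S.Λ ^ (S.code v p + 2 ^ (m - p))) := by
      rw [pow_succ]
      have : 0 ≤ κ ^ p * S.ρ * κ := by positivity
      nlinarith
    by_cases hek : e k = 0
    · have he' : e ∈ S.family p := by
        obtain ⟨h1, h2⟩ := mem_family.1 he
        refine mem_family.2 ⟨closure_mono (by omega) h1, fun l hl => ?_⟩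
        rcases hl.eq_or_lt with h | h
        · rwa [show l = k from Fin.ext h.symm]
        · exact h2 l h
      refine hfac.trans (le_trans ?_ (ih (by omega) hprop' e he' hne))
      exact mul_le_of_le_one_left (by positivity) hk1
    · obtain ⟨hnode, hlo⟩ := hprop k (Nat.lt_succ_self p)
      have hdot := sum_eq_of_family (v := v) (k := k) he hek
      by_cases hsnap : v k ∈ S.breaks v k
      · obtain ⟨e', he', hek', hbp'⟩ := mem_breaks.1 hsnap
        have hdot' := sum_eq_of_family (v := v) (k := k) he' hek'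
        rw [hbp', sub_self, mul_zero] at hdot'
        have hnew : ∑ l, (e' k • e - e k • e') l * v l = e' k * ∑ l, e l * v l := by
          simp only [Pi.sub_apply, Pi.smul_apply, smul_eq_mul, sub_mul, Finset.sum_sub_distrib,
            mul_assoc, ← Finset.mul_sum, hdot', mul_zero, sub_zero]
        have hb := ih (by omega) hprop' _ (elim_family he he')
          (by rw [hnew]; exact mul_ne_zero hek' hne)
        rw [hnew, abs_mul] at hb
        have hC := (H.entry he' k).2
        refine hfac.trans ?_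
        calc κ * (κ ^ p * S.ρ * S.Λ ^ (S.code v p + 2 ^ (m - p)))
            ≤ κ * (C * |∑ l, e l * v l|) :=
              mul_le_mul_of_nonneg_left
                (hb.trans (mul_le_mul_of_nonneg_right hC (abs_nonneg _))) hk0.le
          _ ≤ |∑ l, e l * v l| := by
              rw [← mul_assoc]
              exact mul_le_of_le_one_left (abs_nonneg _) H.kappa_mul
      · have hfree : ∀ c ∈ S.breaks v k, S.band v k ≤ |v k - c| := by
          rcases mem_nodes.1 hnode with h | ⟨h | h, -⟩
          · exact absurd h hlo.ne'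
          · exact absurd h hsnap
          · exact h.2
        have hc := hfree _ (mem_breaks.2 ⟨e, he, hek, rfl⟩)
        rw [hdot, abs_mul]
        simp only [band, k] at hc
        simp only [k] at hcode
        rw [hcode, if_neg hsnap, Nat.add_zero, e1]
        refine le_trans ?_ (mul_le_mul ((H.entry he k).1 hek) hc (by positivity) (abs_nonneg _))
        rw [pow_succ]
        have : κ ^ p ≤ 1 := pow_le_one₀ hk0.le hk1
        calc κ ^ p * κ * S.ρ * S.Λ ^ (S.code v p + 2 ^ (m - 1 - p))
            = κ ^ p * (κ * (S.ρ * S.Λ ^ (S.code v p + 2 ^ (m - 1 - p)))) := by ring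
          _ ≤ κ * (S.ρ * S.Λ ^ (S.code v p + 2 ^ (m - 1 - p))) :=
              mul_le_of_le_one_left (by positivity) this

/-- Distinct breakpoints are far apart. -/
lemma breaks_sep {κ C : ℝ} (H : S.Good κ C) {v : Fin m → ℝ} {k : Fin m}
    (hv : S.Proper v k.val) {c c' : ℝ} (hc : c ∈ S.breaks v k) (hc' : c' ∈ S.breaks v k)
    (hne : c ≠ c') : 10 * S.band v k ≤ |c - c'| := by
  obtain ⟨e, he, hek, rfl⟩ := mem_breaks.1 hc
  obtain ⟨e', he', hek', rfl⟩ := mem_breaks.1 hc'
  have hnew : ∑ l, (e' k • e - e k • e') l * v l = e k * e' k * (bp e' v k - bp e v k) := by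
    simp only [Pi.sub_apply, Pi.smul_apply, smul_eq_mul, sub_mul, Finset.sum_sub_distrib,
      mul_assoc, ← Finset.mul_sum, sum_eq_of_family he hek, sum_eq_of_family he' hek']
    ring
  have hb := separation H k.val k.2.le hv _ (elim_family he he') (by
    rw [hnew]
    exact mul_ne_zero (mul_ne_zero hek hek') (sub_ne_zero.2 hne.symm))
  rw [hnew, abs_mul, abs_mul, abs_sub_comm] at hb
  have hk0 := H.kappa_pos
  have hk1 := H.kappa_le_one
  have hρ := H.rho_pos
  have hΛ := H.twenty_le_lam
  have hC := H.C_ge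
  have h1 := (H.entry he k).2
  have h2 := (H.entry he' k).2
  have hexp : S.Λ * S.Λ ^ (S.code v k.val + 2 ^ (m - 1 - k.val)) ≤
      S.Λ ^ (S.code v k.val + 2 ^ (m - k.val)) := by
    rw [← pow_succ']
    refine H.lam_pow_le ?_
    have e2 : m - k.val = (m - 1 - k.val) + 1 := by omega
    have := Nat.one_le_two_pow (n := m - 1 - k.val)
    rw [e2, pow_succ]
    omega
  have hkp : κ ^ (m + 2) ≤ κ ^ k.val := pow_le_pow_of_le_one hk0.le hk1 (by omega)
  have hmain : κ ^ (m + 2) * S.Λ * S.band v k ≤ C ^ 2 * |bp e v k - bp e' v k| :=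
    calc κ ^ (m + 2) * S.Λ * S.band v k
        = κ ^ (m + 2) * S.ρ * (S.Λ * S.Λ ^ (S.code v k.val + 2 ^ (m - 1 - k.val))) := by
          simp only [band]; ring
      _ ≤ κ ^ k.val * S.ρ * S.Λ ^ (S.code v k.val + 2 ^ (m - k.val)) := by
          apply mul_le_mul (mul_le_mul_of_nonneg_right hkp hρ.le) hexp (by positivity)
            (by positivity)
      _ ≤ |e k| * |e' k| * |bp e v k - bp e' v k| := hb
      _ ≤ C ^ 2 * |bp e v k - bp e' v k| := by
          refine mul_le_mul_of_nonneg_right ?_ (abs_nonneg _)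
          rw [pow_two]
          exact mul_le_mul h1 h2 (abs_nonneg _) (by linarith)
  have hT := H.band_pos v k
  have : 20 * (C + 1) ^ 2 * S.band v k ≤ C ^ 2 * |bp e v k - bp e' v k| :=
    le_trans (mul_le_mul_of_nonneg_right H.lam hT.le) hmain
  by_contra hcon
  rw [not_le] at hcon
  have hC2 : 0 < C ^ 2 := by positivity
  have := mul_lt_mul_of_pos_left hcon hC2
  nlinarith

lemma exists_grid {hρ : 0 < S.ρ} {x : ℝ} (h1 : S.lo - S.ρ ≤ x) (h2 : x + S.ρ ≤ S.hi) :
    ∃ g ∈ S.grid, x < g ∧ g ≤ x + S.ρ := by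
  refine ⟨((⌊x / S.ρ⌋ + 1 : ℤ) : ℝ) * S.ρ, mem_grid.2 ⟨⌊x / S.ρ⌋ + 1, ?_, ?_, rfl⟩, ?_, ?_⟩
  · have h : ((-(S.lowN : ℤ) - 1 : ℤ) : ℝ) ≤ x / S.ρ := by
      rw [le_div_iff₀ hρ]
      simp only [lo] at h1
      push_cast
      linarith
    have := Int.le_floor.2 h
    omega
  · have h : ((⌊x / S.ρ⌋ + 1 : ℤ) : ℝ) ≤ ((S.highN : ℤ) : ℝ) := by
      have := Int.floor_le (x / S.ρ)
      have e : (x / S.ρ) * S.ρ = x := div_mul_cancel₀ _ hρ.ne'
      simp only [hi] at h2
      push_cast
      nlinarith
    exact Int.cast_le.1 h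
  · have := Int.lt_floor_add_one (x / S.ρ)
    rw [div_lt_iff₀ hρ] at this
    push_cast
    linarith
  · have := Int.floor_le (x / S.ρ)
    rw [le_div_iff₀ hρ] at this
    push_cast
    linarith

/-- A free node just above a breakpoint. -/
lemma node_above {κ C : ℝ} (H : S.Good κ C) {v : Fin m → ℝ} {k : Fin m}
    (hv : S.Proper v k.val) {c : ℝ} (hc : c ∈ S.breaks v k) (h1 : S.lo ≤ c + S.band v k)
    (h2 : c + 2 * S.band v k ≤ S.hi) :
    ∃ g ∈ S.nodes v k, c + S.band v k < g ∧ g ≤ c + 2 * S.band v k := by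
  have hT := H.rho_le_band v k
  have hρ := H.rho_pos
  obtain ⟨g, hg, hg1, hg2⟩ := exists_grid (S := S) (hρ := hρ) (x := c + S.band v k)
    (by linarith) (by linarith)
  refine ⟨g, mem_nodes.2 (Or.inr ⟨Or.inr ⟨hg, fun c' hc' => ?_⟩, by linarith, by linarith⟩),
    hg1, by linarith⟩
  rcases eq_or_ne c c' with rfl | hne
  · rw [abs_of_pos (by linarith)]; linarith
  · have := breaks_sep H hv hc hc' hne
    rcases le_total c c' with h | h
    · rw [abs_sub_comm, abs_of_nonneg (by linarith)] at this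
      rw [abs_sub_comm, abs_of_nonneg (by linarith)]
      linarith
    · rw [abs_of_nonneg (by linarith)] at this
      rw [abs_of_nonneg (by linarith)]
      linarith

/-- A free node just below a breakpoint. -/
lemma node_below {κ C : ℝ} (H : S.Good κ C) {v : Fin m → ℝ} {k : Fin m}
    (hv : S.Proper v k.val) {c : ℝ} (hc : c ∈ S.breaks v k) (h1 : S.lo ≤ c - 2 * S.band v k)
    (h2 : c ≤ S.hi) :
    ∃ g ∈ S.nodes v k, c - 2 * S.band v k < g ∧ g ≤ c - S.band v k := by
  have hT := H.rho_le_band v k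
  have hρ := H.rho_pos
  obtain ⟨g, hg, hg1, hg2⟩ := exists_grid (S := S) (hρ := hρ) (x := c - S.band v k - S.ρ)
    (by linarith) (by linarith)
  refine ⟨g, mem_nodes.2 (Or.inr ⟨Or.inr ⟨hg, fun c' hc' => ?_⟩, by linarith, by linarith⟩),
    by linarith, by linarith⟩
  rcases eq_or_ne c c' with rfl | hne
  · rw [abs_of_neg (by linarith)]; linarith
  · have := breaks_sep H hv hc hc' hne
    rcases le_total c c' with h | h
    · rw [abs_sub_comm, abs_of_nonneg (by linarith)] at this
      rw [abs_sub_comm, abs_of_nonneg (by linarith)]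
      linarith
    · rw [abs_of_nonneg (by linarith)] at this
      rw [abs_of_nonneg (by linarith)]
      linarith

/-- The threshold of a breakpoint is within two bands. -/
lemma thr_break_ge {κ C : ℝ} (H : S.Good κ C) {v : Fin m → ℝ} {k : Fin m}
    (hv : S.Proper v k.val) {w : ℝ} (hw : w ∈ S.nodes v k) (hb : w ∈ S.breaks v k) :
    w - 2 * S.band v k ≤ S.before v k w := by
  rcases le_or_gt (w - 2 * S.band v k) S.lo with h | h
  · exact h.trans lo_le_before
  · obtain ⟨g, hg, hg1, hg2⟩ := node_below H hv hb h.le (nodes_range H.rho_pos.le hw).2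
    exact le_trans hg1.le (le_before hg (by linarith [H.band_pos v k]))

/-- There is a next node above `a`, with a threshold close to `a`. -/
lemma exists_next {κ C : ℝ} (H : S.Good κ C) {v : Fin m → ℝ} {k : Fin m}
    (hv : S.Proper v k.val) {a : ℝ} (ha : a ∈ S.nodes v k)
    (hroom : a + 6 * S.band v k ≤ S.hi) :
    ∃ w ∈ S.nodes v k, a < w ∧ (∀ u ∈ S.nodes v k, a < u → w ≤ u) ∧
      (S.lo < a → a ∈ S.breaks v k → S.thr v k w ≤ a + 2 * S.band v k) ∧
      (S.lo < a → a ∉ S.breaks v k → S.thr v k w ≤ a + S.ρ) ∧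
      (a = S.lo → S.thr v k w ≤ a + 5 * S.band v k) := by
  classical
  have hT := H.rho_le_band v k
  have hρ := H.rho_pos
  have halo := (nodes_range hρ.le ha).1
  have hex : ∃ u ∈ S.nodes v k, a < u ∧
      (S.lo < a → a ∈ S.breaks v k → u ≤ a + 2 * S.band v k) ∧
      (a = S.lo → u ≤ a + 5 * S.band v k) := by
    obtain ⟨g, hg, hg1, hg2⟩ := exists_grid (S := S) (hρ := hρ) (x := a)
      (by linarith) (by linarith)
    by_cases hab : a ∈ S.breaks v k
    · obtain ⟨u, hu, hu1, hu2⟩ := node_above H hv hab (by linarith) (by linarith)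
      exact ⟨u, hu, by linarith, fun _ _ => hu2, fun _ => by linarith⟩
    · by_cases hgn : ∀ c ∈ S.breaks v k, S.band v k ≤ |g - c|
      · exact ⟨g, mem_nodes.2 (Or.inr ⟨Or.inr ⟨hg, hgn⟩, by linarith, by linarith⟩), hg1,
          fun _ h => absurd h hab, fun _ => by linarith⟩
      · simp only [not_forall, not_le, exists_prop] at hgn
        obtain ⟨c, hc, hgc⟩ := hgn
        have := abs_lt.1 hgc
        obtain ⟨u, hu, hu1, hu2⟩ := node_above H hv hc (by linarith) (by linarith)
        exact ⟨u, hu, by linarith, fun _ h => absurd h hab, fun _ => by linarith⟩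
  obtain ⟨u₀, hu₀, hau₀, hub, hlob⟩ := hex
  have hne : ((S.nodes v k).filter fun u => a < u).Nonempty :=
    ⟨u₀, Finset.mem_filter.2 ⟨hu₀, hau₀⟩⟩
  obtain ⟨hwn, haw⟩ := Finset.mem_filter.1 (Finset.min'_mem _ hne)
  have hmin : ∀ u ∈ S.nodes v k, a < u → Finset.min' _ hne ≤ u := fun u hu hau =>
    Finset.min'_le _ _ (Finset.mem_filter.2 ⟨hu, hau⟩)
  generalize Finset.min' ((S.nodes v k).filter fun u => a < u) hne = w at hwn haw hmin
  have hwlo : S.lo < w := lt_of_le_of_lt halo haw
  refine ⟨w, hwn, haw, hmin, fun h1 h2 => ?_, fun h1 h2 => ?_, fun h => ?_⟩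
  · exact (thr_le hwlo).trans ((hmin u₀ hu₀ hau₀).trans (hub h1 h2))
  · simp only [thr]
    split_ifs with hwb
    · have : S.before v k w ≤ a := before_le halo fun u hu huw => by
        by_contra hcon
        exact absurd (hmin u hu (not_le.1 hcon)) (not_le.2 huw)
      linarith
    · obtain ⟨hag, hafree⟩ : a ∈ S.grid ∧ ∀ c ∈ S.breaks v k, S.band v k ≤ |a - c| := by
        rcases mem_nodes.1 ha with h | ⟨h | h, -⟩
        · exact absurd h h1.ne'
        · exact absurd h h2
        · exact h
      obtain ⟨j, hj1, hj2, hja⟩ := mem_grid.1 hag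
      have hgrid : a + S.ρ ∈ S.grid := by
        refine mem_grid.2 ⟨j + 1, by omega, ?_, by push_cast; linarith⟩
        have : ((j + 1 : ℤ) : ℝ) ≤ ((S.highN : ℤ) : ℝ) := by
          simp only [hi] at hroom
          push_cast
          by_contra hcon
          nlinarith [hT, hρ]
        exact Int.cast_le.1 this
      by_cases hgn : ∀ c ∈ S.breaks v k, S.band v k ≤ |a + S.ρ - c|
      · exact hmin _ (mem_nodes.2 (Or.inr ⟨Or.inr ⟨hgrid, hgn⟩, by linarith, by linarith⟩))
          (by linarith)
      · simp only [not_forall, not_le, exists_prop] at hgn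
        obtain ⟨c, hc, hgc⟩ := hgn
        have hgc := abs_lt.1 hgc
        have hac : a + S.band v k ≤ c := by
          have := hafree c hc
          rcases le_total c a with h | h
          · rw [abs_of_nonneg (by linarith)] at this; linarith
          · rw [abs_of_nonpos (by linarith)] at this; linarith
        have hwc : w ≤ c :=
          hmin c (mem_nodes.2 (Or.inr ⟨Or.inl hc, by linarith, by linarith⟩)) (by linarith)
        have hwfree : ∀ c ∈ S.breaks v k, S.band v k ≤ |w - c| := by
          rcases mem_nodes.1 hwn with h | ⟨h | h, -⟩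
          · exact absurd h hwlo.ne'
          · exact absurd h hwb
          · exact h.2
        have := hwfree c hc
        rw [abs_of_nonpos (by linarith)] at this
        linarith
  · exact (thr_le hwlo).trans ((hmin u₀ hu₀ hau₀).trans (hlob h))

lemma pair_break {v : Fin m → ℝ} {l' l : Fin m} (h : l' < l) : v l' ∈ S.breaks v l := by
  classical
  refine mem_breaks.2 ⟨pairVec l l', mem_family.2 ⟨pairVec_mem l l' _, fun i hi => ?_⟩, ?_, ?_⟩
  · have h1 : i ≠ l := fun e => by subst e; omega
    have h2 : i ≠ l' := fun e => by subst e; omega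
    simp [pairVec, h1, h2]
  · simp [pairVec, h.ne']
  · have hsum : ∑ i ∈ univ.filter (fun i => i < l), pairVec l l' i * v i = -(v l') := by
      rw [Finset.sum_eq_single l']
      · simp [pairVec, h.ne]
      · intro i hi hne
        have : i ≠ l := (Finset.mem_filter.1 hi).2.ne
        simp [pairVec, this, hne]
      · intro hc
        simp [h] at hc
    simp only [bp, hsum]
    simp [pairVec, h.ne']

lemma pair_node (hρ : 0 ≤ S.ρ) {v : Fin m → ℝ} {l' l : Fin m} (h : l' < l)
    (hv : v l' ∈ S.nodes v l') : v l' ∈ S.nodes v l :=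
  mem_nodes.2 (Or.inr ⟨Or.inl (pair_break h), nodes_range hρ hv⟩)

/-- Thresholds do not grow when a value is repeated. -/
lemma thr_tie {κ C : ℝ} (H : S.Good κ C) {v : Fin m → ℝ} {k l : Fin m} (hkl : k < l)
    (hv : S.Proper v l.val) {u : ℝ} (hu : u ∈ S.nodes v l) (hlo : S.lo < u) (huk : u ≤ v k) :
    S.thr v l u ≤ S.thr v k (v k) := by
  obtain ⟨hkn, hklo⟩ := hv k hkl
  by_cases hb : v k ∈ S.breaks v k
  swap
  · simp only [thr, if_neg hb]
    exact (thr_le hlo).trans huk
  have hvk : S.Proper v k.val := fun j hj => hv j (lt_trans hj hkl)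
  have hcode : S.code v k.val + 2 ^ (m - 1 - k.val) ≤ S.code v l.val := by
    have := code_mono (S := S) (v := v) (show k.val + 1 ≤ l.val from hkl)
    rwa [code_succ, if_pos hb] at this
  have hband : S.Λ * S.band v k ≤ S.band v l := by
    simp only [band]
    rw [mul_left_comm, ← pow_succ']
    refine mul_le_mul_of_nonneg_left (H.lam_pow_le ?_) H.rho_pos.le
    have := Nat.one_le_two_pow (n := m - 1 - l.val)
    omega
  have h20 := H.twenty_le_lam
  have hTk := H.band_pos v k
  have hTl := H.band_pos v l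
  have hbk := thr_break_ge H hvk hkn hb
  have hlk : S.before v k (v k) = S.thr v k (v k) := by simp only [thr, if_pos hb]
  have hwb : v k ∈ S.breaks v l := pair_break hkl
  have hsmall : ∀ u' ∈ S.nodes v l, u' < v k → u' ≤ S.before v k (v k) := by
    intro u' hu' hlt
    rcases mem_nodes.1 hu' with rfl | ⟨h | h, -⟩
    · exact lo_le_before
    · have := breaks_sep H hv h hwb hlt.ne
      rw [abs_of_neg (by linarith)] at this
      nlinarith
    · have := h.2 _ hwb
      rw [abs_of_neg (by linarith)] at this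
      nlinarith
  rw [← hlk]
  rcases huk.eq_or_lt with rfl | hlt
  · simp only [thr, if_pos hwb]
    exact before_le lo_le_before hsmall
  · exact (thr_le hlo).trans (hsmall u hu hlt)

end Stair

end Vale.Agent.P072
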