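import Mathlib.Analysis.SpecialFunctions.Exp
import Mathlib.Algebra.Order.Floor.Ring
import Mathlib.Data.Finset.Max
import Mathlib.Data.Fintype.BigOperators
import Mathlib.Data.Fintype.Perm
import Mathlib.Algebra.Order.Archimedean.Real.Basic

/-!
# Hierarchical staircases

A staircase assigns, coordinate by coordinate in decreasing order of size, admissible values
(nodes) to a point. A node is either a breakpoint, where some vector of a finite family becomes
orthogonal to the chosen values, or a grid point away from all breakpoints. The width of the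
exclusion band around breakpoints is a power of `Λ` read off from a binary counter.
-/

namespace Vale.Agent.P072

open Finset

/-- The data of a staircase. -/
structure Stair (m : ℕ) where
  base : Finset (Fin m → ℝ)
  ρ : ℝ
  Λ : ℝ
  lowN : ℕ
  highN : ℕ

namespace Stair

variable {m : ℕ} (S : Stair m)

/-- The left end of the grid. -/
def lo : ℝ := -((S.lowN : ℝ) * S.ρ)

/-- The right end of the grid. -/
def hi : ℝ := (S.highN : ℝ) * S.ρ

/-- Difference of two coordinate vectors. -/
def pairVec (a b : Fin m) : Fin m → ℝ :=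
  fun i => (if i = a then 1 else 0) - (if i = b then 1 else 0)

open scoped Classical in
/-- Repeated elimination of one coordinate between two vectors. -/
noncomputable def closure : ℕ → Finset (Fin m → ℝ)
  | 0 => S.base ∪ (univ ×ˢ univ).image fun p : Fin m × Fin m => pairVec p.1 p.2
  | j + 1 => closure j ∪ ((closure j ×ˢ closure j) ×ˢ univ).image
      fun p : ((Fin m → ℝ) × (Fin m → ℝ)) × Fin m => p.1.2 p.2 • p.1.1 - p.1.1 p.2 • p.1.2

open scoped Classical in
/-- The vectors used when only the first `p` coordinates are chosen. -/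
noncomputable def family (p : ℕ) : Finset (Fin m → ℝ) :=
  (S.closure (m - p)).filter fun e => ∀ l : Fin m, p ≤ l.val → e l = 0

/-- The value of coordinate `k` at which `e` becomes orthogonal to `v`. -/
noncomputable def bp (e v : Fin m → ℝ) (k : Fin m) : ℝ :=
  -(∑ l ∈ univ.filter (fun l => l < k), e l * v l) / e k

open scoped Classical in
/-- The breakpoints of coordinate `k`. -/
noncomputable def breaks (v : Fin m → ℝ) (k : Fin m) : Finset ℝ :=
  ((S.family (k.val + 1)).filter fun e => e k ≠ 0).image fun e => bp e v k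

open scoped Classical in
/-- The binary counter of snapped coordinates before position `p`. -/
noncomputable def code (v : Fin m → ℝ) (p : ℕ) : ℕ :=
  ∑ l ∈ univ.filter (fun l : Fin m => l.val < p),
    if v l ∈ S.breaks v l then 2 ^ (m - 1 - l.val) else 0

/-- The width of the band around breakpoints. -/
noncomputable def band (v : Fin m → ℝ) (k : Fin m) : ℝ :=
  S.ρ * S.Λ ^ (S.code v k.val + 2 ^ (m - 1 - k.val))

/-- The largest band. -/
def maxBand : ℝ := S.ρ * S.Λ ^ (2 ^ m)

open scoped Classical in
/-- The grid. -/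
noncomputable def grid : Finset ℝ :=
  (Finset.Icc (-(S.lowN : ℤ)) (S.highN : ℤ)).image fun j : ℤ => (j : ℝ) * S.ρ

open scoped Classical in
/-- The admissible values of coordinate `k`. -/
noncomputable def nodes (v : Fin m → ℝ) (k : Fin m) : Finset ℝ :=
  insert S.lo ((S.breaks v k ∪ S.grid.filter fun g => ∀ c ∈ S.breaks v k, S.band v k ≤ |g - c|).filter
    fun w => S.lo ≤ w ∧ w ≤ S.hi)

open scoped Classical in
/-- The node below `w`. -/
noncomputable def before (v : Fin m → ℝ) (k : Fin m) (w : ℝ) : ℝ :=
  (insert S.lo ((S.nodes v k).filter fun u => u < w)).max' (Finset.insert_nonempty _ _)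

open scoped Classical in
/-- The threshold from the node below `w` up to `w`. -/
noncomputable def thr (v : Fin m → ℝ) (k : Fin m) (w : ℝ) : ℝ :=
  if w ∈ S.breaks v k then S.before v k w else w

open scoped Classical in
/-- The cost of coordinate `k`. -/
noncomputable def cost (R : ℝ) (v : Fin m → ℝ) (k : Fin m) : ℝ :=
  ∑ w ∈ (S.nodes v k).filter (fun w => S.lo < w ∧ w ≤ v k),
    (w - S.before v k w) * Real.exp (R * S.thr v k w)

/-- An admissible sequence of values. -/
def Adm (v : Fin m → ℝ) : Prop := Antitone v ∧ ∀ k, v k ∈ S.nodes v k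

/-- The affine piece attached to an ordering and an admissible sequence. -/
noncomputable def piece (R : ℝ) (ξ : Fin m → ℝ) (σ : Equiv.Perm (Fin m)) (v : Fin m → ℝ) : ℝ :=
  ∑ k, (Real.exp (R * ξ (σ k)) * v k - S.cost R v k)

/-- A piece which attains the maximum. -/
def IsBest (R : ℝ) (ξ : Fin m → ℝ) (σ : Equiv.Perm (Fin m)) (v : Fin m → ℝ) : Prop :=
  S.Adm v ∧ ∀ σ' v', S.Adm v' → S.piece R ξ σ' v' ≤ S.piece R ξ σ v

/-- The numerical conditions on a staircase. -/
structure Good (κ C : ℝ) : Prop where
  rho_pos : 0 < S.ρ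
  kappa_pos : 0 < κ
  C_ge : 1 ≤ C
  kappa_mul : κ * C ≤ 1
  entry_low : ∀ e ∈ S.closure m, ∀ l, e l ≠ 0 → κ ≤ |e l|
  entry_high : ∀ e ∈ S.closure m, ∑ l, |e l| ≤ C
  lam : 20 * (C + 1) ^ 2 ≤ κ ^ (m + 2) * S.Λ

end Stair

end Vale.Agent.P072
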